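import Vale.Agent.P284.H625.N.SumS
import Vale.Agent.P284.H837.SpS

/-!
# P284 (helper625), program N, module N6 (SUM), P1: tensors on `E` in the charts of `Y` and of `X`

`pY : E → Y`, `π : Y → X` étale, `p = π ∘ pY`. If `e'` is a branch of `e` at `pY y`, then
`e' (pY y') = e (p y')` for all `y'`, and `fl pY π v y e = v y e'`, `pb π v y e' = v y e`.
-/

open scoped Manifold ContDiff Topology ComplexOrder InnerProductSpace
open Filter Set Metric

noncomputable section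

set_option linter.unusedSectionVars false

namespace Vale.Agent.P284.H625.N

open Vale.Agent.P272.K Vale.Agent.P284.H573 Vale.Agent.P284.H619 Vale.Agent.P284.H894.G
  Vale.Agent.P284.H501 Vale.Agent.P284.H501.Core Vale.Agent.P284.H894.W Vale.Agent.P284.H378
  Vale.Agent.P284.H837 Vale.Agent.P284.H213.Grp

section
variable {n q R m : ℕ} {X Y E : Type} [TopologicalSpace X] [TopologicalSpace Y]
  [ChartedSpace (Cm n) X] [ChartedSpace (Cm n) Y] [TopologicalSpace E] {p : E → X} {pY : E → Y}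
  {π : Y → X} {F : E → Cm q} {e' : Chart n Y} {e : Chart n X} {y : E}

theorem ap (hpi : ∀ y, π (pY y) = p y) (hb : H885.IsBranch π e' e) (y : E) :
    e' (pY y) = e (p y) := by rw [hb.apply, hpi]

theorem at_dn (hpi : ∀ y, π (pY y) = p y) (hb : H885.IsBranch π e' e) (he : At e' (pY y)) :
    At e (p y) := by
  rw [← hpi]
  exact H885.Etale.at_branch hb he

theorem br_at (h : H885.Etale n π) (hpi : ∀ y, π (pY y) = p y) (he : At e (p y)) :
    At (br π e (pY y)) (pY y) ∧ H885.IsBranch π (br π e (pY y)) e :=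
  br_spec h (by rw [hpi]; exact he)

theorem base_at (h : H885.Etale n π) (hpi : ∀ y, π (pY y) = p y) (he : At e' (pY y)) :
    At (H885.base π e') (p y) ∧ H885.IsBranch π e' (H885.base π e') := by
  refine ⟨?_, h.base_spec he.1⟩
  rw [← hpi]
  exact h.at_base he

theorem near_src (hY : Continuous pY) (he : At e' (pY y)) : ∀ᶠ y' in 𝓝 y, At e' (pY y') := by
  filter_upwards [hY.continuousAt.eventually (e'.open_source.mem_nhds he.2)] with y' h
  exact ⟨he.1, h⟩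

/-! ### tensors -/

/-- `v` is a tensor: it has the change of charts of covariant tensors. -/
def Chg (p : E → X) {α : Type} (v : E → Chart n X → (Fin R → Cm n) → α) : Prop :=
  ∀ y e e', At e (p y) → At e' (p y) → ∀ ξ, v y e ξ =
    v y e' (fun i => fderiv ℂ (fun z => e' (e.symm z)) (e (p y)) (ξ i))

/-- two branches of the same chart at the same point -/
theorem fderiv_two {e₁ e₂ : Chart n Y} (hb₁ : H885.IsBranch π e₁ e) (hb₂ : H885.IsBranch π e₂ e)
    {y : Y} (h₁ : At e₁ y) :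
    fderiv ℂ (fun z => e₂ (e₁.symm z)) (e₁ y) = ContinuousLinearMap.id ℂ (Cm n) := by
  rw [hb₁.fderiv_transition hb₂ h₁.2]
  have h2 : At e (π y) := H885.Etale.at_branch hb₁ h₁
  have h3 : (fun z => e (e.symm z)) =ᶠ[𝓝 (e (π y))] fun z => z := by
    filter_upwards [h2.nhds_target] with z hz using e.right_inv hz
  rw [h3.fderiv_eq]
  exact fderiv_fun_id

theorem chg_two {α : Type} {v : E → Chart n Y → (Fin R → Cm n) → α} (hv : Chg pY v)
    {e₁ e₂ : Chart n Y} (hb₁ : H885.IsBranch π e₁ e) (hb₂ : H885.IsBranch π e₂ e)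
    (h₁ : At e₁ (pY y)) (h₂ : At e₂ (pY y)) (ξ : Fin R → Cm n) : v y e₁ ξ = v y e₂ ξ := by
  rw [hv y e₁ e₂ h₁ h₂ ξ, fderiv_two hb₁ hb₂ h₁]
  rfl

theorem fl_eq (h : H885.Etale n π) (hpi : ∀ y, π (pY y) = p y) {α : Type}
    {v : E → Chart n Y → (Fin R → Cm n) → α} (hv : Chg pY v) (he : At e' (pY y))
    (hb : H885.IsBranch π e' e) (ξ : Fin R → Cm n) : fl pY π v y e ξ = v y e' ξ := by
  obtain ⟨h1, h2⟩ := br_at h hpi (at_dn hpi hb he)
  exact chg_two hv h2 hb h1 he ξ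

theorem fl_near (h : H885.Etale n π) (hY : Continuous pY) (hpi : ∀ y, π (pY y) = p y) {α : Type}
    {v : E → Chart n Y → (Fin R → Cm n) → α} (hv : Chg pY v) (he : At e' (pY y))
    (hb : H885.IsBranch π e' e) : ∀ᶠ y' in 𝓝 y, ∀ ξ, fl pY π v y' e ξ = v y' e' ξ := by
  filter_upwards [near_src hY he] with y' hy' ξ
  exact fl_eq h hpi hv hy' hb ξ

theorem pb_eq (h : H885.Etale n π) (hpi : ∀ y, π (pY y) = p y) {α : Type}
    {v : E → Chart n X → (Fin R → Cm n) → α} (hv : Chg p v) (he : At e' (pY y))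
    (hb : H885.IsBranch π e' e) (ξ : Fin R → Cm n) : pb π v y e' ξ = v y e ξ := by
  refine h.tensor_base hb he ?_ ξ
  intro ξ'
  have h1 := base_at h hpi he
  rw [hv y _ e h1.1 (at_dn hpi hb he) ξ', hpi]

theorem fl_pb (h : H885.Etale n π) (hpi : ∀ y, π (pY y) = p y) {α : Type}
    {v : E → Chart n X → (Fin R → Cm n) → α} (hv : Chg p v) (he : At e (p y))
    (ξ : Fin R → Cm n) : fl pY π (pb π v) y e ξ = v y e ξ := by
  obtain ⟨h1, h2⟩ := br_at h hpi he
  exact pb_eq h hpi hv h1 h2 ξ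

theorem pb_fl (h : H885.Etale n π) (hpi : ∀ y, π (pY y) = p y) {α : Type}
    {v : E → Chart n Y → (Fin R → Cm n) → α} (hv : Chg pY v) (he : At e' (pY y))
    (ξ : Fin R → Cm n) : pb π (fl pY π v) y e' ξ = v y e' ξ :=
  fl_eq h hpi hv he (base_at h hpi he).2 ξ

theorem Chg.fl (h : H885.Etale n π) (hpi : ∀ y, π (pY y) = p y) {α : Type}
    {v : E → Chart n Y → (Fin R → Cm n) → α} (hv : Chg pY v) : Chg p (fl pY π v) := by
  intro y e e₁ he he₁ ξ
  obtain ⟨h1, h2⟩ := br_at h hpi he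
  obtain ⟨h3, h4⟩ := br_at h hpi he₁
  have h5 := hv y _ _ h1 h3 ξ
  rw [h2.fderiv_transition h4 h1.2, hpi] at h5
  exact h5

theorem Chg.pb (h : H885.Etale n π) (hpi : ∀ y, π (pY y) = p y) {α : Type}
    {v : E → Chart n X → (Fin R → Cm n) → α} (hv : Chg p v) : Chg pY (pb π v) := by
  intro y e e₁ he he₁ ξ
  obtain ⟨h1, h2⟩ := base_at h hpi he
  obtain ⟨h3, h4⟩ := base_at h hpi he₁
  have h5 := hv y _ _ h1 h3 ξ
  rw [h2.fderiv_transition h4 he.2, hpi]
  exact h5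

/-! ### `F` -/

theorem rep_fl (hpi : ∀ y, π (pY y) = p y) (hb : H885.IsBranch π e' e) {f : Cm n → Cm q} :
    H501.Rep pY F y e' f ↔ H501.Rep p F y e f := by
  unfold H501.Rep
  rw [ap hpi hb]
  simp only [ap hpi hb]

theorem vs_fl (hpi : ∀ y, π (pY y) = p y) (hb : H885.IsBranch π e' e) :
    VS pY F y e' = VS p F y e := by
  ext ξ
  show (∀ f : Cm n → Cm q, (∀ᶠ y' in 𝓝 y, F y' = f (e' (pY y'))) →
    fderiv ℂ f (e' (pY y)) ξ = 0) ↔ (∀ f : Cm n → Cm q, (∀ᶠ y' in 𝓝 y, F y' = f (e (p y'))) →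
    fderiv ℂ f (e (p y)) ξ = 0)
  rw [ap hpi hb]
  simp only [ap hpi hb]

theorem reg_fl (h : H885.Etale n π) (hpi : ∀ y, π (pY y) = p y) :
    Reg (n := n) pY F y ↔ Reg (n := n) p F y := by
  constructor
  · intro hr e f he hf
    obtain ⟨h1, h2⟩ := br_at h hpi he
    have h3 := hr _ f h1 (by simpa only [ap hpi h2] using hf)
    rwa [ap hpi h2] at h3
  · intro hr e' f he hf
    obtain ⟨h1, h2⟩ := base_at h hpi he
    have h3 := hr _ f h1 (by simpa only [ap hpi h2] using hf)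
    rwa [← ap hpi h2] at h3

theorem genConn_fl (h : H885.Etale n π) (hpi : ∀ y, π (pY y) = p y) :
    GenConn (n := n) pY F ↔ GenConn (n := n) p F := by
  unfold GenConn
  simp only [reg_fl h hpi]

/-! ### forms -/

theorem formE_chg {T : Type} [NormedAddCommGroup T] [NormedSpace ℂ T]
    {S : E → Chart n X → Cm n [⋀^Fin m]→L[ℂ] T} (hS : FormE p S) :
    Chg p fun y e ξ => S y e ξ := fun y e e' he he' ξ => hS.change y e e' he he' ξ

theorem flS_eq (h : H885.Etale n π) (hpi : ∀ y, π (pY y) = p y) {T : Type}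
    [NormedAddCommGroup T] [NormedSpace ℂ T] {S : E → Chart n Y → Cm n [⋀^Fin m]→L[ℂ] T}
    (hS : FormE pY S) (he : At e' (pY y)) (hb : H885.IsBranch π e' e) :
    fl pY π S y e = S y e' := by
  ext ξ
  exact fl_eq h hpi (formE_chg hS) he hb ξ

theorem pbS_eq (h : H885.Etale n π) (hpi : ∀ y, π (pY y) = p y) {T : Type}
    [NormedAddCommGroup T] [NormedSpace ℂ T] {S : E → Chart n X → Cm n [⋀^Fin m]→L[ℂ] T}
    (hS : FormE p S) (he : At e' (pY y)) (hb : H885.IsBranch π e' e) :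
    pb π S y e' = S y e := by
  ext ξ
  exact pb_eq h hpi (formE_chg hS) he hb ξ

theorem formE_fl (h : H885.Etale n π) (hY : Continuous pY) (hpi : ∀ y, π (pY y) = p y) {T : Type}
    [NormedAddCommGroup T] [NormedSpace ℂ T] {S : E → Chart n Y → Cm n [⋀^Fin m]→L[ℂ] T}
    (hS : FormE pY S) : FormE p (fl pY π S) := by
  refine ⟨fun y e he => ?_, fun y e e' he he' ξ => ?_⟩
  · obtain ⟨h1, h2⟩ := br_at h hpi he
    obtain ⟨s, hs, hsS⟩ := hS.holo y _ h1
    rw [ap hpi h2] at hs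
    refine ⟨s, hs, ?_⟩
    filter_upwards [hsS, near_src hY h1] with y' h3 h4
    rw [flS_eq h hpi hS h4 h2, h3, ap hpi h2]
  · exact Chg.fl h hpi (formE_chg hS) y e e' he he' ξ

theorem formE_pb (h : H885.Etale n π) (hpi : ∀ y, π (pY y) = p y) {T : Type}
    [NormedAddCommGroup T] [NormedSpace ℂ T] {S : E → Chart n X → Cm n [⋀^Fin m]→L[ℂ] T}
    (hS : FormE p S) : FormE pY (pb π S) := by
  refine ⟨fun y e' he => ?_, fun y e e' he he' ξ => ?_⟩
  · obtain ⟨h1, h2⟩ := base_at h hpi he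
    obtain ⟨s, hs, hsS⟩ := hS.holo y _ h1
    rw [← ap hpi h2] at hs
    refine ⟨s, hs, ?_⟩
    filter_upwards [hsS] with y' h3
    show S y' (H885.base π e') = _
    rw [h3, ap hpi h2]
  · exact Chg.pb h hpi (formE_chg hS) y e e' he he' ξ

section rel
variable {W : Type} [NormedAddCommGroup W] [InnerProductSpace ℂ W] {G : Type} [Group G]
  [MulAction G E] {ρ : G →* (W ≃ₗᵢ[ℂ] W)}

theorem relS_fl (h : H885.Etale n π) (hY : Continuous pY) (hpi : ∀ y, π (pY y) = p y)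
    {S : E → Chart n Y → Cm n [⋀^Fin (q + 1)]→L[ℂ] W} (hS : RelS pY F S) :
    RelS p F (fl pY π S) := by
  refine ⟨formE_fl h hY hpi hS.form, fun y e f he hf hs ξ i j hij hi hj => ?_,
    fun y e f s he hf hs hsS => ?_⟩
  · obtain ⟨h1, h2⟩ := br_at h hpi he
    have hf' := (rep_fl hpi h2).2 hf
    have := hS.rel y _ f h1 hf' (by rw [ap hpi h2]; exact hs) ξ i j hij
      (by rw [ap hpi h2]; exact hi) (by rw [ap hpi h2]; exact hj)
    exact this
  · obtain ⟨h1, h2⟩ := br_at h hpi he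
    have hf' := (rep_fl hpi h2).2 hf
    obtain ⟨V, hV, C, hC, hVC⟩ := hS.push y _ f s h1 hf' (by rw [ap hpi h2]; exact hs) (by
      filter_upwards [hsS, near_src hY h1] with y' h3 h4
      rw [← flS_eq h hpi hS.form h4 h2, h3, ap hpi h2])
    rw [ap hpi h2] at hV
    exact ⟨V, hV, C, hC, hVC⟩

theorem relS_pb (h : H885.Etale n π) (hY : Continuous pY) (hpi : ∀ y, π (pY y) = p y)
    {S : E → Chart n X → Cm n [⋀^Fin (q + 1)]→L[ℂ] W} (hS : RelS p F S) :
    RelS pY F (pb π S) := by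
  refine ⟨formE_pb h hpi hS.form, fun y e f he hf hs ξ i j hij hi hj => ?_,
    fun y e f s he hf hs hsS => ?_⟩
  · obtain ⟨h1, h2⟩ := base_at h hpi he
    have hf' := (rep_fl hpi h2).1 hf
    exact hS.rel y _ f h1 hf' (by rw [← ap hpi h2]; exact hs) ξ i j hij
      (by rw [← ap hpi h2]; exact hi) (by rw [← ap hpi h2]; exact hj)
  · obtain ⟨h1, h2⟩ := base_at h hpi he
    have hf' := (rep_fl hpi h2).1 hf
    obtain ⟨V, hV, C, hC, hVC⟩ := hS.push y _ f s h1 hf' (by rw [← ap hpi h2]; exact hs) (by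
      filter_upwards [hsS] with y' h3
      rw [ap hpi h2] at h3
      exact h3)
    rw [← ap hpi h2] at hV
    exact ⟨V, hV, C, hC, hVC⟩

theorem sRel_fl (h : H885.Etale n π) (hY : Continuous pY) (hpi : ∀ y, π (pY y) = p y)
    {S : E → Chart n Y → Cm n [⋀^Fin (q + 1)]→L[ℂ] W} {Θ : E → Chart n Y → (Cm n →L[ℂ] W)}
    (hpg : ∀ (g : G) (y : E), pY (g • y) = pY y)
    (hS : SRel pY F ρ S Θ) : SRel p F ρ (fl pY π S) (fl pY π Θ) := by
  refine ⟨relS_fl h hY hpi hS.rel, fun y e s he hs hsS => ?_, fun g y e he ξ => ?_, ?_,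
    fun y e f he hf hs Θ' hΘ' ξ hξ => ?_⟩
  · obtain ⟨h1, h2⟩ := br_at h hpi he
    have := hS.closed y _ s h1 (by rw [ap hpi h2]; exact hs) (by
      filter_upwards [hsS, near_src hY h1] with y' h3 h4
      rw [← flS_eq h hpi hS.rel.form h4 h2, h3, ap hpi h2])
    rwa [ap hpi h2] at this
  · obtain ⟨h1, h2⟩ := br_at h hpi he
    have h3 := hS.equi g y _ h1 ξ
    show S (g • y) (br π e (pY (g • y))) ξ = ρ g (S y (br π e (pY y)) ξ)
    rw [hpg]
    exact h3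
  · obtain ⟨y, e, he, ξ, hne⟩ := hS.ne
    obtain ⟨h1, h2⟩ := base_at h hpi he
    refine ⟨y, _, h1, ξ, ?_⟩
    rw [flS_eq h hpi hS.rel.form he h2]
    exact hne
  · obtain ⟨h1, h2⟩ := br_at h hpi he
    have hf' := (rep_fl hpi h2).2 hf
    exact hS.th y _ f h1 hf' (by rw [ap hpi h2]; exact hs) Θ' (by rw [ap hpi h2]; exact hΘ') ξ
      (by rw [ap hpi h2]; exact hξ)

theorem sRel_pb (h : H885.Etale n π) (hY : Continuous pY) (hpi : ∀ y, π (pY y) = p y)
    {S : E → Chart n X → Cm n [⋀^Fin (q + 1)]→L[ℂ] W} {Θ : E → Chart n X → (Cm n →L[ℂ] W)}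
    (hS : SRel p F ρ S Θ) : SRel pY F ρ (pb π S) (pb π Θ) := by
  refine ⟨relS_pb h hY hpi hS.rel, fun y e s he hs hsS => ?_, fun g y e he ξ => ?_, ?_,
    fun y e f he hf hs Θ' hΘ' ξ hξ => ?_⟩
  · obtain ⟨h1, h2⟩ := base_at h hpi he
    have := hS.closed y _ s h1 (by rw [← ap hpi h2]; exact hs) (by
      filter_upwards [hsS] with y' h3
      rw [ap hpi h2] at h3
      exact h3)
    rwa [← ap hpi h2] at this
  · obtain ⟨h1, h2⟩ := base_at h hpi he
    exact hS.equi g y _ h1 ξ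
  · obtain ⟨y, e, he, ξ, hne⟩ := hS.ne
    obtain ⟨h1, h2⟩ := br_at h hpi he
    refine ⟨y, _, h1, ξ, ?_⟩
    rw [pbS_eq h hpi hS.rel.form h1 h2]
    exact hne
  · obtain ⟨h1, h2⟩ := base_at h hpi he
    have hf' := (rep_fl hpi h2).1 hf
    exact hS.th y _ f h1 hf' (by rw [← ap hpi h2]; exact hs) Θ' (by rw [← ap hpi h2]; exact hΘ') ξ
      (by rw [← ap hpi h2]; exact hξ)

/-! ### the relative form -/

/-- change of charts at `y`, for vertical vectors -/
def ChgV (p : E → X) (F : E → Cm q) (Θ : E → Chart n X → (Cm n →L[ℂ] W)) (y : E) : Prop :=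
  ∀ e e', At e (p y) → At e' (p y) → ∀ ξ ∈ VS p F y e,
    Θ y e ξ = Θ y e' (fderiv ℂ (fun z => e' (e.symm z)) (e (p y)) ξ)

theorem flT_eq (h : H885.Etale n π) (hpi : ∀ y, π (pY y) = p y)
    {Θ : E → Chart n Y → (Cm n →L[ℂ] W)} (hΘ : ChgV pY F Θ y) (he : At e' (pY y))
    (hb : H885.IsBranch π e' e) {ξ : Cm n} (hξ : ξ ∈ VS p F y e) :
    fl pY π Θ y e ξ = Θ y e' ξ := by
  obtain ⟨h1, h2⟩ := br_at h hpi (at_dn hpi hb he)
  have h3 := hΘ _ _ h1 he ξ (by rw [vs_fl hpi h2]; exact hξ)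
  rw [fderiv_two h2 hb h1] at h3
  exact h3

theorem pbT_eq (h : H885.Etale n π) (hpi : ∀ y, π (pY y) = p y)
    {Θ : E → Chart n X → (Cm n →L[ℂ] W)} (hΘ : ChgV p F Θ y) (he : At e' (pY y))
    (hb : H885.IsBranch π e' e) {ξ : Cm n} (hξ : ξ ∈ VS p F y e) :
    pb π Θ y e' ξ = Θ y e ξ := by
  obtain ⟨h1, h2⟩ := base_at h hpi he
  have h3 := hΘ _ _ h1 (at_dn hpi hb he) ξ (by rw [← vs_fl hpi h2, vs_fl hpi hb]; exact hξ)
  rw [← hpi, h.fderiv_base hb he] at h3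
  exact h3

theorem chgV_fl (h : H885.Etale n π) (hpi : ∀ y, π (pY y) = p y)
    {Θ : E → Chart n Y → (Cm n →L[ℂ] W)} (hΘ : ChgV pY F Θ y) : ChgV p F (fl pY π Θ) y := by
  intro e e₁ he he₁ ξ hξ
  obtain ⟨h1, h2⟩ := br_at h hpi he
  obtain ⟨h3, h4⟩ := br_at h hpi he₁
  have h5 := hΘ _ _ h1 h3 ξ (by rw [vs_fl hpi h2]; exact hξ)
  rw [h2.fderiv_transition h4 h1.2, hpi] at h5
  exact h5

theorem chgV_pb (h : H885.Etale n π) (hpi : ∀ y, π (pY y) = p y)
    {Θ : E → Chart n X → (Cm n →L[ℂ] W)} (hΘ : ChgV p F Θ y) : ChgV pY F (pb π Θ) y := by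
  intro e e₁ he he₁ ξ hξ
  obtain ⟨h1, h2⟩ := base_at h hpi he
  obtain ⟨h3, h4⟩ := base_at h hpi he₁
  have h5 := hΘ _ _ h1 h3 ξ (by rw [← vs_fl hpi h2]; exact hξ)
  rw [h2.fderiv_transition h4 he.2, hpi]
  exact h5

theorem vPot_fl (h : H885.Etale n π) (hY : Continuous pY) (hpi : ∀ y, π (pY y) = p y) {t : Cm q}
    {Θ : E → Chart n Y → (Cm n →L[ℂ] W)} {u : E → W} (hu : VPot pY F t W Θ u) :
    VPot p F t W (fl pY π Θ) u := by
  have hc : ∀ y, F y = t → ChgV pY F Θ y := fun y hy e e' he he' ξ hξ =>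
    hu.change y e e' hy he he' ξ hξ
  refine ⟨fun y e hy he => ?_, fun y e e' hy he he' ξ hξ => ?_, fun y e hy he c => ?_⟩
  · obtain ⟨h1, h2⟩ := br_at h hpi he
    obtain ⟨A, hA, hA'⟩ := hu.hol y _ hy h1
    rw [ap hpi h2] at hA
    refine ⟨A, hA, ?_⟩
    filter_upwards [hA', near_src hY h1] with y' h3 h4 h5 ξ hξ
    rw [flT_eq h hpi (hc y' h5) h4 h2 hξ, h3 h5 ξ (by rw [vs_fl hpi h2]; exact hξ), ap hpi h2]
  · exact chgV_fl h hpi (hc y hy) e e' he he' ξ hξ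
  · obtain ⟨h1, h2⟩ := br_at h hpi he
    obtain ⟨g, k, hg, hk, hev⟩ := hu.pot y _ hy h1 c
    rw [ap hpi h2] at hg hk
    refine ⟨g, k, hg, hk, ?_⟩
    filter_upwards [hev, near_src hY h1] with y' h3 h4 h5
    rw [ap hpi h2] at h3
    refine ⟨(h3 h5).1, fun ξ hξ => ?_⟩
    rw [flT_eq h hpi (hc y' h5) h4 h2 hξ]
    exact (h3 h5).2 ξ (by rw [vs_fl hpi h2]; exact hξ)

theorem vPot_pb (h : H885.Etale n π) (hpi : ∀ y, π (pY y) = p y) {t : Cm q}
    {Θ : E → Chart n X → (Cm n →L[ℂ] W)} {u : E → W} (hu : VPot p F t W Θ u) :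
    VPot pY F t W (pb π Θ) u := by
  have hc : ∀ y, F y = t → ChgV p F Θ y := fun y hy e e' he he' ξ hξ =>
    hu.change y e e' hy he he' ξ hξ
  refine ⟨fun y e hy he => ?_, fun y e e' hy he he' ξ hξ => ?_, fun y e hy he c => ?_⟩
  · obtain ⟨h1, h2⟩ := base_at h hpi he
    obtain ⟨A, hA, hA'⟩ := hu.hol y _ hy h1
    rw [← ap hpi h2] at hA
    refine ⟨A, hA, ?_⟩
    filter_upwards [hA'] with y' h3 h5 ξ hξ
    rw [ap hpi h2]
    exact h3 h5 ξ (by rw [← vs_fl hpi h2]; exact hξ)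
  · exact chgV_pb h hpi (hc y hy) e e' he he' ξ hξ
  · obtain ⟨h1, h2⟩ := base_at h hpi he
    obtain ⟨g, k, hg, hk, hev⟩ := hu.pot y _ hy h1 c
    rw [← ap hpi h2] at hg hk
    refine ⟨g, k, hg, hk, ?_⟩
    filter_upwards [hev] with y' h3 h5
    rw [ap hpi h2]
    refine ⟨(h3 h5).1, fun ξ hξ => ?_⟩
    exact (h3 h5).2 ξ (by rw [← vs_fl hpi h2]; exact hξ)

theorem vEqui_fl (h : H885.Etale n π) (hpi : ∀ y, π (pY y) = p y) {t : Cm q} {L : Subgroup G}
    (hpg : ∀ (g : G) (y : E), pY (g • y) = pY y)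
    {Θ : E → Chart n Y → (Cm n →L[ℂ] W)} {u : E → W} (hu : VEqui pY F t L ρ Θ u) :
    VEqui p F t L ρ (fl pY π Θ) u := by
  refine ⟨fun k hk y e hy he ξ hξ => ?_, hu.pot⟩
  obtain ⟨h1, h2⟩ := br_at h hpi he
  show Θ (k • y) (br π e (pY (k • y))) ξ = ρ k (Θ y (br π e (pY y)) ξ)
  rw [hpg]
  exact hu.form k hk y _ hy h1 ξ (by rw [vs_fl hpi h2]; exact hξ)

theorem vEqui_pb (h : H885.Etale n π) (hpi : ∀ y, π (pY y) = p y) {t : Cm q} {L : Subgroup G}
    {Θ : E → Chart n X → (Cm n →L[ℂ] W)} {u : E → W} (hu : VEqui p F t L ρ Θ u) :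
    VEqui pY F t L ρ (pb π Θ) u := by
  refine ⟨fun k hk y e hy he ξ hξ => ?_, hu.pot⟩
  obtain ⟨h1, h2⟩ := base_at h hpi he
  exact hu.form k hk y _ hy h1 ξ (by rw [← vs_fl hpi h2]; exact hξ)

end rel

/-! ### Hilbert space valued forms -/

section hform
variable {H : Type} [NormedAddCommGroup H] [InnerProductSpace ℂ H]

/-- `HForm` without the invariance of the norm -/
structure PForm (n R m : ℕ) {X E : Type} [TopologicalSpace X] [ChartedSpace (Cm n) X]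
    [TopologicalSpace E] (p : E → X) (H : Type) [NormedAddCommGroup H] [InnerProductSpace ℂ H]
    (v : E → Chart n X → (Fin R → Cm n) → H) : Prop where
  hol : ∀ y e, At e (p y) → ∃ F : Cm n × (Fin R → Cm n) → H,
    (∀ ξ, AnalyticAt ℂ F (e (p y), ξ)) ∧ ∀ᶠ y' in 𝓝 y, ∀ ξ, v y' e ξ = F (e (p y'), ξ)
  change : ∀ y e e', At e (p y) → At e' (p y) → ∀ ξ, v y e ξ =
    v y e' (fun i => fderiv ℂ (fun z => e' (e.symm z)) (e (p y)) (ξ i))
  det : ∀ y e, At e (p y) → ∀ (A : Matrix (Fin R) (Fin R) ℂ) (ξ : Fin R → Cm n),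
    v y e (fun i => ∑ j, A i j • ξ j) = A.det ^ m • v y e ξ

theorem HForm.toP {v : E → Chart n X → (Fin R → Cm n) → H} (hv : HForm n R m p H v) :
    PForm n R m p H v := ⟨hv.hol, hv.change, hv.det⟩

theorem PForm.toH {v : E → Chart n X → (Fin R → Cm n) → H} (hv : PForm n R m p H v)
    (inv : ∀ y y₁ e, At e (p y) → p y = p y₁ → ∀ ξ, ‖v y e ξ‖ = ‖v y₁ e ξ‖) :
    HForm n R m p H v := ⟨hv.hol, hv.change, hv.det, inv⟩

theorem PForm.fl (h : H885.Etale n π) (hY : Continuous pY) (hpi : ∀ y, π (pY y) = p y)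
    {v : E → Chart n Y → (Fin R → Cm n) → H} (hv : PForm n R m pY H v) :
    PForm n R m p H (fl pY π v) := by
  refine ⟨fun y e he => ?_, fun y e e' he he' ξ => Chg.fl h hpi hv.change y e e' he he' ξ,
    fun y e he A ξ => ?_⟩
  · obtain ⟨h1, h2⟩ := br_at h hpi he
    obtain ⟨f, hf, hf'⟩ := hv.hol y _ h1
    rw [ap hpi h2] at hf
    refine ⟨f, hf, ?_⟩
    filter_upwards [hf', fl_near h hY hpi hv.change h1 h2] with y' h3 h4 ξ
    rw [h4, h3, ap hpi h2]
  · obtain ⟨h1, h2⟩ := br_at h hpi he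
    exact hv.det y _ h1 A ξ

theorem PForm.pb (h : H885.Etale n π) (hpi : ∀ y, π (pY y) = p y)
    {v : E → Chart n X → (Fin R → Cm n) → H} (hv : PForm n R m p H v) :
    PForm n R m pY H (pb π v) := by
  refine ⟨fun y e he => ?_, fun y e e' he he' ξ => Chg.pb h hpi hv.change y e e' he he' ξ,
    fun y e he A ξ => ?_⟩
  · obtain ⟨h1, h2⟩ := base_at h hpi he
    obtain ⟨f, hf, hf'⟩ := hv.hol y _ h1
    rw [← ap hpi h2] at hf
    refine ⟨f, hf, ?_⟩
    filter_upwards [hf'] with y' h3 ξ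
    rw [ap hpi h2]
    exact h3 ξ
  · obtain ⟨h1, h2⟩ := base_at h hpi he
    exact hv.det y _ h1 A ξ

/-- normal forms, from `X` to `Y` -/
theorem isNF_pb (h : H885.Etale n π) (hY : Continuous pY) (hpi : ∀ y, π (pY y) = p y)
    {v : E → Chart n X → (Fin R → Cm n) → H} (hv : Chg p v) (he : At e' (pY y))
    (hb : H885.IsBranch π e' e) {b : Cm n → Cm R} {γ : Cm R → H} :
    IsNF m pY (pb π v) y e' b γ ↔ IsNF m p v y e b γ := by
  have h0 := ap hpi hb y
  have h1 := at_dn hpi hb he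
  constructor
  · intro k
    refine ⟨h1, by rw [← h0]; exact k.ban, by rw [← h0]; exact k.bsurj, by rw [← h0]; exact k.γan,
      by rw [← h0]; exact k.imm, ?_⟩
    filter_upwards [k.nf, near_src hY he] with y' h2 h3 ξ
    rw [← pb_eq h hpi hv h3 hb, h2, ap hpi hb]
  · intro k
    refine ⟨he, by rw [h0]; exact k.ban, by rw [h0]; exact k.bsurj, by rw [h0]; exact k.γan,
      by rw [h0]; exact k.imm, ?_⟩
    filter_upwards [k.nf, near_src hY he] with y' h2 h3 ξ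
    rw [pb_eq h hpi hv h3 hb, h2, ap hpi hb]

theorem nff_pb (h : H885.Etale n π) (hY : Continuous pY) (hpi : ∀ y, π (pY y) = p y)
    {v : E → Chart n X → (Fin R → Cm n) → H} (hv : Chg p v) (he : At e' (pY y))
    (hb : H885.IsBranch π e' e) {b : Cm n → Cm R} {γ : Cm R → H} {t : Cm R → Cm q} :
    NFF m pY (pb π v) F y e' b γ t ↔ NFF m p v F y e b γ t := by
  have h0 := ap hpi hb y
  constructor
  · intro k
    refine ⟨(isNF_pb h hY hpi hv he hb).1 k.nf, by rw [← h0]; exact k.tan, ?_⟩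
    filter_upwards [k.eq] with y' h2
    rw [h2, ap hpi hb]
  · intro k
    refine ⟨(isNF_pb h hY hpi hv he hb).2 k.nf, by rw [h0]; exact k.tan, ?_⟩
    filter_upwards [k.eq] with y' h2
    rw [h2, ap hpi hb]

/-- sheets, from `X` to `Y` -/
theorem sh0_pb (h : H885.Etale n π) (hY : Continuous pY) (hpi : ∀ y, π (pY y) = p y)
    {v : E → Chart n X → (Fin R → Cm n) → H} (hv : Chg p v) {γ : Cm R → H} {t : Cm R → Cm q}
    {x : Cm R} : Sh0 pY (pb π v) F γ t y x ↔ Sh0 p v F γ t y x := by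
  constructor
  · rintro ⟨e', β, he, hβ, hβx, hev⟩
    obtain ⟨h1, h2⟩ := base_at h hpi he
    rw [ap hpi h2] at hβ hβx
    refine ⟨_, β, h1, hβ, hβx, ?_⟩
    filter_upwards [hev] with y' h3
    rw [ap hpi h2] at h3
    exact h3
  · rintro ⟨e, β, he, hβ, hβx, hev⟩
    obtain ⟨h1, h2⟩ := br_at h hpi he
    refine ⟨_, β, h1, by rw [ap hpi h2]; exact hβ, by rw [ap hpi h2]; exact hβx, ?_⟩
    filter_upwards [hev, near_src hY h1] with y' h3 h4
    rw [ap hpi h2]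
    refine ⟨fun ξ => ?_, h3.2⟩
    rw [pb_eq h hpi hv h4 h2]
    exact h3.1 ξ

end hform

end

end Vale.Agent.P284.H625.N
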