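import Vale.Agent.P284.H837.BrS

/-!
# P284 (helper625), program N, module N1: twisted equivariance of `F`

The standing data of `SpStmt` with `F (g • y) = A_g (F y) + b_g`, `A_g` a linear automorphism of `ℂ^q`,
in place of `F (g • y) = F y + c g`; transport of branches.
-/

open scoped Manifold ContDiff Topology ComplexOrder
open Filter Set Metric

noncomputable section

namespace Vale.Agent.P284.H625.N

open Vale.Agent.P272.K Vale.Agent.P272.KOD Vale.Agent.P284.H573 Vale.Agent.P284.H812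
  Vale.Agent.P284.H451 Vale.Agent.P284.H553 Vale.Agent.P284.H619 Vale.Agent.P284.H894
  Vale.Agent.P284.H894.G Vale.Agent.P284.H553.LB Vale.Agent.P284.H335 Vale.Agent.P284.H837

/-- the standing data, `F` twisted equivariant -/
structure DatN (n R q m : ℕ) (X E Γ : Type) [TopologicalSpace X] [ChartedSpace (Cm n) X]
    [TopologicalSpace E] [Group Γ] [MulAction Γ E] (H : Type) [NormedAddCommGroup H]
    [InnerProductSpace ℂ H] (p : E → X) (v : E → Chart n X → (Fin R → Cm n) → H) (F : E → Cm q) :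
    Prop where
  hR : 1 ≤ R
  hm : 1 ≤ m
  gal : IsGalois Γ p
  hv : HForm n R m p H v
  eqv : Eqv Γ p v
  hF : HolF n p F
  per : ∀ g : Γ, ∃ (A : Cm q ≃L[ℂ] Cm q) (a : Cm q), ∀ y, F (g • y) = A (F y) + a

section
variable {n R q m : ℕ} {X E Γ : Type} [TopologicalSpace X] [ChartedSpace (Cm n) X]
    [TopologicalSpace E] [Group Γ] [MulAction Γ E] {H : Type} [NormedAddCommGroup H]
    [InnerProductSpace ℂ H] {p : E → X} {v : E → Chart n X → (Fin R → Cm n) → H} {F : E → Cm q}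

/-- the data without `F` -/
theorem DatN.zero (D : DatN n R q m X E Γ H p v F) :
    Dat n R 0 m X E Γ H p v (fun _ => (0 : Cm 0)) (fun _ => 0) :=
  ⟨D.hR, D.hm, D.gal, D.hv, D.eqv, fun _ _ _ => ⟨fun _ => 0, Eventually.of_forall fun _ => rfl,
    analyticAt_const⟩, fun _ _ => (add_zero _).symm⟩

end

/-- **(M1)** -/
def M1N : Prop :=
  ∀ (n R q m : ℕ) (X E Γ : Type) [TopologicalSpace X] [ChartedSpace (Cm n) X]
    [IsManifold 𝓘(ℂ, Cm n) ω X]
    [TopologicalSpace E] [Group Γ] [MulAction Γ E] (H : Type) [NormedAddCommGroup H]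
    [InnerProductSpace ℂ H] [CompleteSpace H] (p : E → X)
    (v : E → Chart n X → (Fin R → Cm n) → H) (F : E → Cm q)
    (_ : DatN n R q m X E Γ H p v F) (_ : LFin Γ m p v F)
    (Z : Type) [TopologicalSpace Z] [ChartedSpace (Cm R) Z] [IsManifold 𝓘(ℂ, Cm R) ω Z]
    (j : Z → X) (_ : ContMDiff 𝓘(ℂ, Cm R) 𝓘(ℂ, Cm n) ω j)
    (y₀ : E) (e : Chart n X) (b : Cm n → Cm R) (γ : Cm R → H) (t : Cm R → Cm q)
    (_ : NFF m p v F y₀ e b γ t),
    ∃ r > 0, ∃ N₀ : ℕ, BrMult (ball (b (e (p y₀))) r) (BrG p v F j γ t) N₀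

/-- **(M2)** -/
def M2N : Prop :=
  ∀ (n R q m : ℕ) (X E Γ : Type) [TopologicalSpace X] [T2Space X] [ChartedSpace (Cm n) X]
    [IsManifold 𝓘(ℂ, Cm n) ω X]
    [TopologicalSpace E] [ConnectedSpace E] [Group Γ] [MulAction Γ E] (H : Type)
    [NormedAddCommGroup H]
    [InnerProductSpace ℂ H] [CompleteSpace H] (p : E → X)
    (v : E → Chart n X → (Fin R → Cm n) → H) (F : E → Cm q)
    (_ : DatN n R q m X E Γ H p v F)
    (y₀ : E) (e : Chart n X) (b : Cm n → Cm R) (γ : Cm R → H) (t : Cm R → Cm q)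
    (_ : NFF m p v F y₀ e b γ t),
    IsPreconnected {y : E | GoodAt p R m v y} ∧ IsPreconnected (GoodX p R m v) ∧
      ∀ (y : E) (e : Chart n X) (b : Cm n → Cm R) (γ : Cm R → H), IsNF m p v y e b γ →
        ∃ t : Cm R → Cm q, NFF m p v F y e b γ t

/-- **(M3)** -/
def M3N : Prop :=
  ∀ (n R q m : ℕ) (X E Γ : Type) [TopologicalSpace X] [ChartedSpace (Cm n) X]
    [IsManifold 𝓘(ℂ, Cm n) ω X]
    [TopologicalSpace E] [Group Γ] [MulAction Γ E] (H : Type) [NormedAddCommGroup H]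
    [InnerProductSpace ℂ H] [CompleteSpace H] (p : E → X)
    (v : E → Chart n X → (Fin R → Cm n) → H) (F : E → Cm q)
    (_ : DatN n R q m X E Γ H p v F)
    (y y' : E) (_ : p y' = p y) (e e' : Chart n X) (b b' : Cm n → Cm R) (γ γ' : Cm R → H)
    (t t' : Cm R → Cm q)
    (_ : NFF m p v F y e b γ t) (_ : NFF m p v F y' e' b' γ' t'),
    ∃ φ : Cm R → Cm R, AnalyticAt ℂ φ (b (e (p y))) ∧
      Function.Bijective (fderiv ℂ φ (b (e (p y)))) ∧
      (∀ᶠ x in 𝓝 (p y), b' (e' x) = φ (b (e x))) ∧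
      (∃ (g : Γ) (U : H →ₗᵢ[ℂ] H), (∀ y e, At e (p y) → ∀ ξ, v (g • y) e ξ = U (v y e ξ)) ∧
        (∀ᶠ z in 𝓝 (b (e (p y))), U (γ z) = (fderiv ℂ φ z).det ^ m • γ' (φ z)) ∧
        ∃ (A : Cm q ≃L[ℂ] Cm q) (a : Cm q), (∀ y, F (g • y) = A (F y) + a) ∧
          ∀ᶠ z in 𝓝 (b (e (p y))), t' (φ z) = A (t z) + a) ∧
      ∀ (Z : Type) [TopologicalSpace Z] [ChartedSpace (Cm R) Z] [IsManifold 𝓘(ℂ, Cm R) ω Z]
        (j : Z → X) (_ : ContMDiff 𝓘(ℂ, Cm R) 𝓘(ℂ, Cm n) ω j),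
        (BrG p v F j γ t (b (e (p y)))).encard = (BrG p v F j γ' t' (b' (e' (p y)))).encard ∧
        ∀ (k : ℕ) (σ : PSec R k Z), trv (BrG p v F j γ t) σ (b (e (p y))) =
          trv (BrG p v F j γ' t') σ (b' (e' (p y))) * (fderiv ℂ φ (b (e (p y)))).det ^ k

/-- **(M5)** -/
def M5N : Prop :=
  ∀ (n R q m : ℕ) (X E Γ : Type) [TopologicalSpace X] [ChartedSpace (Cm n) X]
    [IsManifold 𝓘(ℂ, Cm n) ω X]
    [TopologicalSpace E] [Group Γ] [MulAction Γ E] (H : Type) [NormedAddCommGroup H]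
    [InnerProductSpace ℂ H] [CompleteSpace H] (p : E → X)
    (v : E → Chart n X → (Fin R → Cm n) → H) (F : E → Cm q)
    (_ : DatN n R q m X E Γ H p v F)
    (x : X) (e : Chart n X) (_ : At e x) (ξ : Fin R → Cm n),
    ∃ C : ℝ, ∀ᶠ x' in 𝓝 x, ∀ (y : E) (e₀ : Chart n X) (b : Cm n → Cm R) (γ : Cm R → H),
      p y = x' → IsNF m p v y e₀ b γ →
      ‖γ (b (e₀ x'))‖ ^ 2 * (gm (frame γ (b (e₀ x')))).det.re *
        (‖(DM (fun z => b (e₀ (e.symm z))) (e x') ξ).det‖ ^ 2) ^ (m * (R + 2) + 1) ≤ C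

theorem m5N_of (h : M5Stmt) : M5N := by
  intro n R q m X E Γ _ _ _ _ _ _ H _ _ _ p v F D x e he ξ
  exact h n R 0 m X E Γ H p v _ _ D.zero x e he ξ

/-- **(M6)** -/
def M6N : Prop :=
  ∀ (n R q m : ℕ) (X E Γ : Type) [TopologicalSpace X] [ChartedSpace (Cm n) X]
    [IsManifold 𝓘(ℂ, Cm n) ω X]
    [TopologicalSpace E] [Group Γ] [MulAction Γ E] (H : Type) [NormedAddCommGroup H]
    [InnerProductSpace ℂ H] [CompleteSpace H] (p : E → X)
    (v : E → Chart n X → (Fin R → Cm n) → H) (F : E → Cm q)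
    (_ : DatN n R q m X E Γ H p v F)
    (y₀ : E) (e : Chart n X) (b : Cm n → Cm R) (γ : Cm R → H) (t : Cm R → Cm q)
    (_ : NFF m p v F y₀ e b γ t),
    ∃ W ∈ 𝓝 (p y₀), ∀ (Z : Type) [TopologicalSpace Z] [ChartedSpace (Cm R) Z]
      [IsManifold 𝓘(ℂ, Cm R) ω Z] (j : Z → X) (_ : ContMDiff 𝓘(ℂ, Cm R) 𝓘(ℂ, Cm n) ω j)
      (z₁ : Z) (k : Chart R Z), At k z₁ → j z₁ ∈ W →
      Function.Bijective (fderiv ℂ (fun z => b (e (j (k.symm z)))) (k z₁)) →
      (BrG p v F j γ t (b (e (j z₁)))).Nonempty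

section
variable {n R q m : ℕ} {X E Z : Type} [TopologicalSpace X] [ChartedSpace (Cm n) X]
  [TopologicalSpace E] [TopologicalSpace Z] [ChartedSpace (Cm R) Z]
  {H : Type} [NormedAddCommGroup H] [InnerProductSpace ℂ H] {p : E → X}
  {v : E → Chart n X → (Fin R → Cm n) → H} {F : E → Cm q} {j : Z → X}
  [IsManifold 𝓘(ℂ, Cm n) ω X] [IsManifold 𝓘(ℂ, Cm R) ω Z]
  {Γ : Type} [Group Γ] [MulAction Γ E]

/-- Transport of branches by `φ`. -/
theorem pullN (hv : HForm n R m p H v) (hj : ContMDiff 𝓘(ℂ, Cm R) 𝓘(ℂ, Cm n) ω j)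
    (hp : IsLocalHomeomorph p) (hpi : ∀ (g : Γ) y, p (g • y) = p y)
    (hgc : ∀ g : Γ, Continuous fun y : E => g • y) {g : Γ} {A : Cm q ≃L[ℂ] Cm q} {a : Cm q}
    (hFc : ∀ y, F (g • y) = A (F y) + a)
    {U : H →ₗᵢ[ℂ] H} (hU : ∀ y e, At e (p y) → ∀ ξ, v (g • y) e ξ = U (v y e ξ))
    {γ γ' : Cm R → H} {t t' : Cm R → Cm q} {φ : Cm R → Cm R} {β : Cm R}
    (hφ : AnalyticAt ℂ φ β)
    (h1 : ∀ᶠ z in 𝓝 β, U (γ z) = (fderiv ℂ φ z).det ^ m • γ' (φ z))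
    (h2 : ∀ᶠ z in 𝓝 β, t' (φ z) = A (t z) + a) {f : Cm R → Z} {l : Cm R → E}
    (h : BrL p v F j γ' t' (φ β) f l) :
    BrL p v F j γ t β (fun z => f (φ z)) (fun z => g⁻¹ • l (φ z)) := by
  have hev := hφ.continuousAt.eventually (h.ev hj hp)
  refine ⟨comp_hol hφ h.hol, ?_, ?_, ?_, ?_⟩
  · exact (hgc g⁻¹).continuousAt.comp (h.cont.comp hφ.continuousAt)
  · filter_upwards [hφ.continuousAt.eventually h.lift] with z hz
    rw [hpi, hz]
  · filter_upwards [hev, h1, hφ.eventually_analyticAt] with z a1 a2 a3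
    have b1 := VE_comp hv (l := l) a3 (a1.hol_lift hj)
    rw [a1.val.self_of_nhds, ← a2] at b1
    have b2 := VE_smul (p := p) (v := v) hpi hU (l := fun z => g⁻¹ • l (φ z)) (z := z)
    simp only [smul_inv_smul] at b2
    rw [b1] at b2
    exact (U.injective b2).symm
  · filter_upwards [hev, h2] with z a1 a2
    have b1 := hFc (g⁻¹ • l (φ z))
    rw [smul_inv_smul, a1.fval.self_of_nhds, a2] at b1
    exact (A.injective (add_right_cancel b1)).symm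

/-- Transport of branches by the inverse of `φ`. -/
theorem pushN (hv : HForm n R m p H v) (hj : ContMDiff 𝓘(ℂ, Cm R) 𝓘(ℂ, Cm n) ω j)
    (hp : IsLocalHomeomorph p) (hpi : ∀ (g : Γ) y, p (g • y) = p y)
    (hgc : ∀ g : Γ, Continuous fun y : E => g • y) {g : Γ} {A : Cm q ≃L[ℂ] Cm q} {a : Cm q}
    (hFc : ∀ y, F (g • y) = A (F y) + a)
    {U : H →ₗᵢ[ℂ] H} (hU : ∀ y e, At e (p y) → ∀ ξ, v (g • y) e ξ = U (v y e ξ))
    {γ γ' : Cm R → H} {t t' : Cm R → Cm q} {φ ψ : Cm R → Cm R} {β : Cm R}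
    (hφ : AnalyticAt ℂ φ β) (hψ : AnalyticAt ℂ ψ (φ β)) (hψβ : ψ (φ β) = β)
    (hφψ : ∀ᶠ z in 𝓝 (φ β), φ (ψ z) = z)
    (h1 : ∀ᶠ z in 𝓝 β, U (γ z) = (fderiv ℂ φ z).det ^ m • γ' (φ z))
    (h2 : ∀ᶠ z in 𝓝 β, t' (φ z) = A (t z) + a) {f : Cm R → Z} {l : Cm R → E}
    (h : BrL p v F j γ t β f l) :
    BrL p v F j γ' t' (φ β) (fun z => f (ψ z)) (fun z => g • l (ψ z)) := by
  have hψc : Tendsto ψ (𝓝 (φ β)) (𝓝 β) := by
    have := hψ.continuousAt.tendsto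
    rwa [hψβ] at this
  have hev := hψc.eventually (h.ev hj hp)
  refine ⟨comp_hol hψ (by rw [hψβ]; exact h.hol), ?_, ?_, ?_, ?_⟩
  · refine (hgc g).continuousAt.comp (ContinuousAt.comp (g := l) (by rw [hψβ]; exact h.cont)
      hψ.continuousAt)
  · filter_upwards [hψc.eventually h.lift] with z hz
    rw [hpi, hz]
  · filter_upwards [hev, hψc.eventually h1, hψ.eventually_analyticAt, hφψ.eventually_nhds,
      hψc.eventually hφ.eventually_analyticAt] with z a1 a2 a3 a4 a5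
    rw [VE_smul (p := p) (v := v) hpi hU (l := fun z => l (ψ z)) (z := z),
      VE_comp hv (l := l) a3 (a1.hol_lift hj), a1.val.self_of_nhds, map_smul, a2, smul_smul,
      ← mul_pow]
    have b1 : (fun z => φ (ψ z)) =ᶠ[𝓝 z] id := a4
    have b2 : (fderiv ℂ φ (ψ z)).comp (fderiv ℂ ψ z) = ContinuousLinearMap.id ℂ (Cm R) := by
      rw [← fderiv_comp (𝕜 := ℂ) z (g := φ) a5.differentiableAt a3.differentiableAt,
        ← fderiv_id (𝕜 := ℂ) (x := z)]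
      exact b1.fderiv_eq
    have b3 : (fderiv ℂ ψ z).det * (fderiv ℂ φ (ψ z)).det = 1 := by
      rw [mul_comm]
      have b4 := congrArg (fun L : Cm R →L[ℂ] Cm R => L.det) b2
      have b5 : ((fderiv ℂ φ (ψ z)).comp (fderiv ℂ ψ z)).det =
          (fderiv ℂ φ (ψ z)).det * (fderiv ℂ ψ z).det := LinearMap.det_comp _ _
      rw [← b5, b4]
      exact LinearMap.det_id
    rw [b3, one_pow, one_smul, a4.self_of_nhds]
  · filter_upwards [hev, hψc.eventually h2, hφψ] with z a1 a2 a3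
    rw [hFc, a1.fval.self_of_nhds, ← a2, a3]

end

end Vale.Agent.P284.H625.N
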