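import Vale.Agent.P284.H501.Core.Th
import Vale.Agent.P284.H885.Trans
import Vale.Agent.P284.H625.N.Dat
import Mathlib.Analysis.Normed.Lp.PiLp
import Mathlib.Analysis.InnerProductSpace.PiL2
import Mathlib.Analysis.Normed.Module.Alternating.Basic

/-!
# P284 (helper625), program N, module N6 (SUM): definitions

`p : E → X` is a Galois covering with group `Γ`, `G` a normal subgroup of finite index, `pY : E → Y` the
Galois covering with group `G`, `π : Y → X` étale with `π ∘ pY = p`.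

* `fl pY π v`: a tensor on `E` with respect to the charts of `Y`, in the charts of `X`;
* `pb π v`: a tensor with respect to the charts of `X`, in the charts of `Y`;
* `tr`, `coc`: representatives of `Γ ⧸ G`, and their cocycle; `indU`, `indR`: induced isometries;
* `sumS`, `sumT`, `sumV`: the direct sums of the translates of `S`, `Θ`, `v`.
-/

open scoped Manifold ContDiff Topology ComplexOrder InnerProductSpace
open Filter Set Metric

noncomputable section

set_option linter.unusedSectionVars false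

namespace Vale.Agent.P284.H625.N

open Vale.Agent.P272.K Vale.Agent.P284.H573 Vale.Agent.P284.H619 Vale.Agent.P284.H894.G
  Vale.Agent.P284.H501 Vale.Agent.P284.H501.Core

/-! ### charts -/

section charts
variable {n : ℕ} {X Y : Type} [TopologicalSpace X] [TopologicalSpace Y]
  [ChartedSpace (Cm n) X] [ChartedSpace (Cm n) Y] {E : Type}

open Classical in
/-- a branch of the chart `e` of `X` at the point `y` of `Y` -/
def br (π : Y → X) (e : Chart n X) (y : Y) : Chart n Y :=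
  if h : ∃ e' : Chart n Y, At e' y ∧ H885.IsBranch π e' e then h.choose
  else chartAt (Cm n) y

/-- a tensor with respect to `Y`, in the charts of `X` -/
def fl (pY : E → Y) (π : Y → X) {α : Type} (v : E → Chart n Y → α) : E → Chart n X → α :=
  fun y e => v y (br π e (pY y))

/-- a tensor with respect to `X`, in the charts of `Y` -/
def pb (π : Y → X) {α : Type} (v : E → Chart n X → α) : E → Chart n Y → α :=
  fun y e' => v y (H885.base π e')

theorem br_spec {π : Y → X} (h : H885.Etale n π) {e : Chart n X} {y : Y} (he : At e (π y)) :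
    At (br π e y) y ∧ H885.IsBranch π (br π e y) e := by
  have h1 := h.exists_branch he
  unfold br
  rw [dif_pos h1]
  exact h1.choose_spec

end charts

/-! ### the group -/

section grp
variable {Γ : Type} [Group Γ] (G : Subgroup Γ)

/-- representatives of the cosets -/
def tr (i : Γ ⧸ G) : Γ := i.out

theorem mk_tr (i : Γ ⧸ G) : ((tr G i : Γ) : Γ ⧸ G) = i := Quotient.out_eq' i

variable [G.Normal]

/-- the cocycle of the representatives: `tr i * γ = coc γ i * tr (i * γ)` -/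
def coc (γ : Γ) (i : Γ ⧸ G) : G :=
  ⟨tr G i * γ * (tr G (i * (γ : Γ ⧸ G)))⁻¹, by
    rw [← QuotientGroup.eq_one_iff, QuotientGroup.mk_mul, QuotientGroup.mk_mul,
      QuotientGroup.mk_inv, mk_tr, mk_tr, mul_inv_cancel]⟩

theorem tr_mul (γ : Γ) (i : Γ ⧸ G) :
    tr G i * γ = (coc G γ i : Γ) * tr G (i * (γ : Γ ⧸ G)) := by
  show _ = tr G i * γ * (tr G (i * (γ : Γ ⧸ G)))⁻¹ * tr G (i * (γ : Γ ⧸ G))
  rw [inv_mul_cancel_right]

theorem coc_mul (γ δ : Γ) (i : Γ ⧸ G) :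
    coc G (γ * δ) i = coc G γ i * coc G δ (i * (γ : Γ ⧸ G)) := by
  apply Subtype.ext
  show tr G i * (γ * δ) * (tr G (i * ((γ * δ : Γ) : Γ ⧸ G)))⁻¹ =
    tr G i * γ * (tr G (i * (γ : Γ ⧸ G)))⁻¹ *
      (tr G (i * (γ : Γ ⧸ G)) * δ * (tr G (i * (γ : Γ ⧸ G) * (δ : Γ ⧸ G)))⁻¹)
  rw [QuotientGroup.mk_mul, ← mul_assoc i]
  group

theorem coc_one (i : Γ ⧸ G) : coc G 1 i = 1 := by
  apply Subtype.ext
  show tr G i * 1 * (tr G (i * ((1 : Γ) : Γ ⧸ G)))⁻¹ = 1
  rw [QuotientGroup.mk_one, mul_one, mul_one, mul_inv_cancel]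

/-- the cocycle of an element of `G` -/
theorem coc_mem (g : G) (i : Γ ⧸ G) :
    (coc G (g : Γ) i : Γ) = tr G i * g * (tr G i)⁻¹ := by
  have h : i * ((g : Γ) : Γ ⧸ G) = i := by
    rw [(QuotientGroup.eq_one_iff (g : Γ)).2 g.2, mul_one]
  show tr G i * g * (tr G (i * ((g : Γ) : Γ ⧸ G)))⁻¹ = _
  rw [h]

variable [Fintype (Γ ⧸ G)] {H : Type} [NormedAddCommGroup H] [InnerProductSpace ℂ H]

/-- the direct sum of copies of `H` over the cosets -/
abbrev Tot (G : Subgroup Γ) [Fintype (Γ ⧸ G)] (H : Type) [NormedAddCommGroup H] : Type :=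
  PiLp 2 fun _ : Γ ⧸ G => H

theorem norm_perm (γ : Γ) (U : G → (H →ₗᵢ[ℂ] H)) (w : Tot G H) :
    ‖(WithLp.toLp 2 fun i => U (coc G γ i) (w (i * (γ : Γ ⧸ G))) : Tot G H)‖ = ‖w‖ := by
  rw [PiLp.norm_eq_of_L2, PiLp.norm_eq_of_L2]
  congr 1
  rw [← Equiv.sum_comp (Equiv.mulRight (γ : Γ ⧸ G)) fun i => ‖w i‖ ^ 2]
  refine Finset.sum_congr rfl fun i _ => ?_
  show ‖U (coc G γ i) (w (i * (γ : Γ ⧸ G)))‖ ^ 2 = ‖w (i * (γ : Γ ⧸ G))‖ ^ 2
  rw [LinearIsometry.norm_map]

/-- induced isometries -/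
def indU (U : G → (H →ₗᵢ[ℂ] H)) (γ : Γ) : Tot G H →ₗᵢ[ℂ] Tot G H where
  toFun w := WithLp.toLp 2 fun i => U (coc G γ i) (w (i * (γ : Γ ⧸ G)))
  map_add' w w' := by
    ext i
    show U (coc G γ i) ((w + w') (i * (γ : Γ ⧸ G))) = U (coc G γ i) (w (i * (γ : Γ ⧸ G))) +
      U (coc G γ i) (w' (i * (γ : Γ ⧸ G)))
    rw [PiLp.add_apply, map_add]
  map_smul' t w := by
    ext i
    show U (coc G γ i) ((t • w) (i * (γ : Γ ⧸ G))) = t • U (coc G γ i) (w (i * (γ : Γ ⧸ G)))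
    rw [PiLp.smul_apply, map_smul]
  norm_map' w := norm_perm G γ U w

theorem indU_apply (U : G → (H →ₗᵢ[ℂ] H)) (γ : Γ) (w : Tot G H) (i : Γ ⧸ G) :
    indU G U γ w i = U (coc G γ i) (w (i * (γ : Γ ⧸ G))) := rfl

theorem ind_mul (π : G →* (H ≃ₗᵢ[ℂ] H)) (γ δ : Γ) (w : Tot G H) :
    (WithLp.toLp 2 fun i => π (coc G (γ * δ) i) (w (i * ((γ * δ : Γ) : Γ ⧸ G))) : Tot G H) =
    WithLp.toLp 2 fun i => π (coc G γ i) ((WithLp.toLp 2 fun i =>
      π (coc G δ i) (w (i * (δ : Γ ⧸ G))) : Tot G H) (i * (γ : Γ ⧸ G))) := by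
  ext i
  show π (coc G (γ * δ) i) (w (i * ((γ * δ : Γ) : Γ ⧸ G))) =
    π (coc G γ i) (π (coc G δ (i * (γ : Γ ⧸ G))) (w (i * (γ : Γ ⧸ G) * (δ : Γ ⧸ G))))
  rw [coc_mul, map_mul, QuotientGroup.mk_mul, ← mul_assoc i]
  rfl

/-- the induced representation -/
def indR (π : G →* (H ≃ₗᵢ[ℂ] H)) : Γ →* (Tot G H ≃ₗᵢ[ℂ] Tot G H) where
  toFun γ :=
    { toFun := fun w => WithLp.toLp 2 fun i => π (coc G γ i) (w (i * (γ : Γ ⧸ G)))
      invFun := fun w => WithLp.toLp 2 fun i => π (coc G γ⁻¹ i) (w (i * ((γ⁻¹ : Γ) : Γ ⧸ G)))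
      map_add' := fun w w' => by
        ext i
        show π (coc G γ i) ((w + w') (i * (γ : Γ ⧸ G))) = π (coc G γ i) (w (i * (γ : Γ ⧸ G))) +
          π (coc G γ i) (w' (i * (γ : Γ ⧸ G)))
        rw [PiLp.add_apply, map_add]
      map_smul' := fun t w => by
        ext i
        show π (coc G γ i) ((t • w) (i * (γ : Γ ⧸ G))) = t • π (coc G γ i) (w (i * (γ : Γ ⧸ G)))
        rw [PiLp.smul_apply, map_smul]
      left_inv := fun w => by
        refine (ind_mul G π γ⁻¹ γ w).symm.trans ?_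
        ext i
        show π (coc G (γ⁻¹ * γ) i) (w (i * ((γ⁻¹ * γ : Γ) : Γ ⧸ G))) = w i
        rw [inv_mul_cancel, coc_one, map_one, QuotientGroup.mk_one, mul_one]
        rfl
      right_inv := fun w => by
        refine (ind_mul G π γ γ⁻¹ w).symm.trans ?_
        ext i
        show π (coc G (γ * γ⁻¹) i) (w (i * ((γ * γ⁻¹ : Γ) : Γ ⧸ G))) = w i
        rw [mul_inv_cancel, coc_one, map_one, QuotientGroup.mk_one, mul_one]
        rfl
      norm_map' := fun w => norm_perm G γ (fun g => (π g).toLinearIsometry) w }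
  map_one' := by
    ext w i
    show π (coc G 1 i) (w (i * ((1 : Γ) : Γ ⧸ G))) = w i
    rw [coc_one, map_one, QuotientGroup.mk_one, mul_one]
    rfl
  map_mul' γ δ := by
    ext w i
    show π (coc G (γ * δ) i) (w (i * ((γ * δ : Γ) : Γ ⧸ G))) =
      π (coc G γ i) (π (coc G δ (i * (γ : Γ ⧸ G))) (w (i * (γ : Γ ⧸ G) * (δ : Γ ⧸ G))))
    rw [coc_mul, map_mul, QuotientGroup.mk_mul, ← mul_assoc i]
    rfl

theorem indR_apply (π : G →* (H ≃ₗᵢ[ℂ] H)) (γ : Γ) (w : Tot G H) (i : Γ ⧸ G) :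
    indR G π γ w i = π (coc G γ i) (w (i * (γ : Γ ⧸ G))) := rfl

/-- the elements of `G` preserve the components -/
theorem indR_mem (π : G →* (H ≃ₗᵢ[ℂ] H)) (g : G) (w : Tot G H) (i : Γ ⧸ G) :
    indR G π (g : Γ) w i = π (coc G (g : Γ) i) (w i) := by
  rw [indR_apply, (QuotientGroup.eq_one_iff (g : Γ)).2 g.2, mul_one]

/-- the induced representation is trivial on the centralizer of `K`, a normal subgroup of `Γ` -/
theorem indR_cent (π : G →* (H ≃ₗᵢ[ℂ] H)) {K : Subgroup Γ} (hK : K.Normal)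
    (h : ∀ g : G, (∀ k ∈ K, (g : Γ) * k = k * g) → π g = 1) (g : G)
    (hg : ∀ k ∈ K, (g : Γ) * k = k * g) : indR G π (g : Γ) = 1 := by
  ext w i
  rw [indR_mem, h]
  · rfl
  · intro k hk
    rw [coc_mem]
    have h1 := hg ((tr G i)⁻¹ * k * tr G i) (by
      have := hK.conj_mem k hk (tr G i)⁻¹
      rwa [inv_inv] at this)
    calc tr G i * g * (tr G i)⁻¹ * k
        = tr G i * (g * ((tr G i)⁻¹ * k * tr G i)) * (tr G i)⁻¹ := by group
      _ = k * (tr G i * g * (tr G i)⁻¹) := by rw [h1]; group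

end grp

/-! ### the sums -/

section sums
variable {n q R : ℕ} {X E : Type} [TopologicalSpace X] [ChartedSpace (Cm n) X]
  {Γ : Type} [Group Γ] [MulAction Γ E] (G : Subgroup Γ) [Fintype (Γ ⧸ G)]
  {W : Type} [NormedAddCommGroup W] [InnerProductSpace ℂ W]

/-- from families to the direct sum -/
def toTot : (Γ ⧸ G → W) →L[ℂ] Tot G W :=
  (PiLp.continuousLinearEquiv 2 ℂ fun _ : Γ ⧸ G => W).symm.toContinuousLinearMap

theorem toTot_apply (f : Γ ⧸ G → W) (i : Γ ⧸ G) : toTot G f i = f i := rfl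

/-- the sum of the translates of `S` -/
def sumS (A : Γ → (Cm q ≃ₗ[ℂ] Cm q)) (S : E → Chart n X → Cm n [⋀^Fin (q + 1)]→L[ℂ] W) :
    E → Chart n X → Cm n [⋀^Fin (q + 1)]→L[ℂ] Tot G W :=
  fun y e => (toTot G).compContinuousAlternatingMap
    (ContinuousAlternatingMap.pi fun i => (LinearMap.det (A (tr G i) : Cm q →ₗ[ℂ] Cm q))⁻¹ •
      S (tr G i • y) e)

/-- the sum of the translates of `Θ` -/
def sumT (Θ : E → Chart n X → (Cm n →L[ℂ] W)) : E → Chart n X → (Cm n →L[ℂ] Tot G W) :=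
  fun y e => (toTot G).comp (ContinuousLinearMap.pi fun i => Θ (tr G i • y) e)

/-- the sum of the translates of `v` -/
def sumV (v : E → Chart n X → (Fin R → Cm n) → W) : E → Chart n X → (Fin R → Cm n) → Tot G W :=
  fun y e ξ => toTot G fun i => v (tr G i • y) e ξ

variable {G}

theorem sumS_apply (A : Γ → (Cm q ≃ₗ[ℂ] Cm q))
    (S : E → Chart n X → Cm n [⋀^Fin (q + 1)]→L[ℂ] W) (y : E) (e : Chart n X)
    (ξ : Fin (q + 1) → Cm n) (i : Γ ⧸ G) : sumS G A S y e ξ i =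
      (LinearMap.det (A (tr G i) : Cm q →ₗ[ℂ] Cm q))⁻¹ • S (tr G i • y) e ξ := rfl

theorem sumT_apply (Θ : E → Chart n X → (Cm n →L[ℂ] W)) (y : E) (e : Chart n X) (ξ : Cm n)
    (i : Γ ⧸ G) : sumT G Θ y e ξ i = Θ (tr G i • y) e ξ := rfl

theorem sumV_apply (v : E → Chart n X → (Fin R → Cm n) → W) (y : E) (e : Chart n X)
    (ξ : Fin R → Cm n) (i : Γ ⧸ G) : sumV G v y e ξ i = v (tr G i • y) e ξ := rfl

end sums

end Vale.Agent.P284.H625.N
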