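import Vale.Agent.P284.H625.N.Dat
import Vale.Agent.P284.H279.M2

/-!
# P284 (helper625), program N: the good points form a connected set (`M2N`; proof of helper279)
-/

open scoped Manifold ContDiff Topology InnerProductSpace
open Filter Set Metric

noncomputable section

namespace Vale.Agent.P284.H625.N

open Vale.Agent.P272.K Vale.Agent.P284.H573 Vale.Agent.P284.H619 Vale.Agent.P284.H174
  Vale.Agent.P284.H174.GD Vale.Agent.P284.H837 Vale.Agent.P284.H10 Vale.Agent.P284.H494
  Vale.Agent.P284.H553.LB Vale.Agent.P284.H894.G Vale.Agent.P284.H279.M2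

/-- **M2** -/
theorem m2N : M2N := by
  intro n R q m X E Γ _ _ _ _ _ _ _ _ H _ _ _ p v F hD y₀ e₀ b₀ γ₀ t₀ hN
  have hp := hD.gal.cov
  have hn : 1 ≤ n := by
    have h1 := LinearMap.finrank_le_finrank_of_surjective
      (f := (fderiv ℂ b₀ (e₀ (p y₀)) : Cm n →ₗ[ℂ] Cm R)) hN.nf.bsurj
    simp only [Module.finrank_fintype_fun_eq_card, Fintype.card_fin] at h1
    exact hD.hR.trans h1
  have hgood : GoodAt p R m v y₀ := ⟨e₀, b₀, γ₀, hN.nf⟩
  have hpre := good_preconnected hn hD.hv hp hgood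
  refine ⟨hpre, ?_, ?_⟩
  · have h1 : GoodX p R m v = p '' {y : E | GoodAt p R m v y} := by
      ext x
      constructor
      · rintro ⟨y, hy, hg⟩
        exact ⟨y, hg, hy⟩
      · rintro ⟨y, hg, hy⟩
        exact ⟨y, hy, hg⟩
    rw [h1]
    exact hpre.image _ hp.continuous.continuousOn
  · set A : Set E := {y | ∃ e b γ t, NFF m p v F y e b γ t} with hA
    have hAo : IsOpen A := by
      rw [isOpen_iff_mem_nhds]
      rintro y ⟨e, b, γ, t, h⟩
      filter_upwards [nff_eventually hp h] with y' h' using ⟨e, b, γ, t, h'⟩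
    have hcl : closure A ∩ {y : E | GoodAt p R m v y} ⊆ A := by
      rintro y₁ ⟨hy₁, e, b, γ, h⟩
      obtain ⟨f, hf, hfa⟩ := hD.hF y₁ e h.mem
      obtain ⟨P, hPa, hP⟩ := H885.Ker.vert_proj h.ban h.bsurj
      -- a ball where everything is analytic
      obtain ⟨ρ, hρ, hρb⟩ := Metric.eventually_nhds_iff_ball.1
        (hfa.eventually_analyticAt.and (hPa.eventually_analyticAt.and hP))
      set K := ball (e (p y₁)) ρ with hK
      have hall : ∀ᶠ y in 𝓝 y₁, e (p y) ∈ K ∧ IsNF m p v y e b γ ∧ F y = f (e (p y)) := by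
        filter_upwards [(tendsto_ep hp h.mem).eventually (ball_mem_nhds _ hρ),
          h.eventually hp.continuous.continuousAt, hf] with y h1 h2 h3 using ⟨h1, h2, h3⟩
      obtain ⟨y₂, ⟨e', b', γ', t', h2⟩, h3⟩ := (mem_closure_iff_frequently.1 hy₁).and_eventually
        hall.eventually_nhds |>.exists
      obtain ⟨t, ht⟩ := nff_of hp hD.hv h2 h3.self_of_nhds.2.1
      -- near `y₂`
      have hft : ∀ᶠ z in 𝓝 (e (p y₂)), f z = t (b z) := by
        rw [← ev_iff hp ht.nf.mem]
        filter_upwards [ht.eq, h3] with y h4 h5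
        rw [← h5.2.2, h4]
      have hfa' : AnalyticOnNhd ℂ (fderiv ℂ f) K := fun z hz => (hρb z hz).1.fderiv
      have hPa' : AnalyticOnNhd ℂ P K := fun z hz => (hρb z hz).2.1
      have hkey : ∀ ξ : Cm n, EqOn (fun z => fderiv ℂ f z (P z ξ)) 0 K := by
        intro ξ
        refine AnalyticOnNhd.eqOn_zero_of_preconnected_of_eventuallyEq_zero (𝕜 := ℂ)
          (fun z hz => ?_) (convex_ball _ _).isPreconnected h3.self_of_nhds.1 ?_
        · have h4 : AnalyticAt ℂ (fun z => P z ξ) z :=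
            (ContinuousLinearMap.apply ℂ (Cm n) ξ).analyticAt _ |>.fun_comp (hPa' z hz)
          have h5 := (ContinuousLinearMap.id ℂ (Cm n →L[ℂ] Cm q)).analyticAt_bilinear
            (fderiv ℂ f z, P z ξ)
          exact AnalyticAt.fun_comp_of_eq h5 ((hfa' z hz).prod h4) rfl
        · have h4 : ∀ᶠ z in 𝓝 (e (p y₂)), AnalyticAt ℂ t (b z) :=
            ht.nf.ban.continuousAt.eventually ht.tan.eventually_analyticAt
          filter_upwards [hft.eventually_nhds, h4, ht.nf.ban.eventually_analyticAt,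
            isOpen_ball.mem_nhds h3.self_of_nhds.1] with z h5 h6 h7 h8
          have h9 : fderiv ℂ f z = (fderiv ℂ t (b z)).comp (fderiv ℂ b z) := by
            rw [Filter.EventuallyEq.fderiv_eq h5]
            exact fderiv_comp z (g := t) (f := b) h6.differentiableAt h7.differentiableAt
          show fderiv ℂ f z (P z ξ) = 0
          rw [h9, ContinuousLinearMap.comp_apply, (hρb z h8).2.2.1 ξ, map_zero]
      have hker : ∀ᶠ z in 𝓝 (e (p y₁)), ∀ x, fderiv ℂ b z x = 0 → fderiv ℂ f z x = 0 := by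
        filter_upwards [ball_mem_nhds (e (p y₁)) hρ] with z hz x hx
        have h4 := hkey x hz
        simp only [Pi.zero_apply] at h4
        rw [(hρb z hz).2.2.2 x hx] at h4
        exact h4
      obtain ⟨t₁, ht₁a, ht₁⟩ := exists_factor h.ban h.bsurj hfa hker
      refine ⟨e, b, γ, t₁, h, ht₁a, ?_⟩
      filter_upwards [hf, (ev_iff hp h.mem).2 ht₁] with y h4 h5
      rw [h4, h5]
    have hsub : {y : E | GoodAt p R m v y} ⊆ A :=
      hpre.subset_of_closure_inter_subset hAo ⟨y₀, hgood, e₀, b₀, γ₀, t₀, hN⟩ hcl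
    intro y e b γ h
    obtain ⟨e', b', γ', t', h'⟩ := hsub (show y ∈ {y : E | GoodAt p R m v y} from ⟨e, b, γ, h⟩)
    exact nff_of hp hD.hv h' h

end Vale.Agent.P284.H625.N
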