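import Vale.Agent.P284.H625.N.Dat
import Vale.Agent.P284.H998.M3

/-!
# P284 (helper625), program N: comparison of two normal forms, twisted `F` (proof of helper998)
-/

open scoped Manifold ContDiff Topology ComplexOrder
open Filter Set Metric

noncomputable section

namespace Vale.Agent.P284.H625.N

open Vale.Agent.P272.K Vale.Agent.P272.KOD Vale.Agent.P284.H573 Vale.Agent.P284.H812
  Vale.Agent.P284.H451 Vale.Agent.P284.H553 Vale.Agent.P284.H619 Vale.Agent.P284.H894
  Vale.Agent.P284.H894.G Vale.Agent.P284.H837 Vale.Agent.P284.H174 Vale.Agent.P284.H174.GD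
  Vale.Agent.P284.H998.M3

/-- **(M3)**, twisted -/
theorem m3N : M3N := by
  intro n R q m X E Γ _ _ _ _ _ _ H _ _ _ p v F D y y' hpy e e' b b' γ γ' t t' h h'
  have hcov := D.gal.cov
  obtain ⟨g, hg⟩ := (D.gal.orb y y').1 hpy.symm
  obtain ⟨U, hU⟩ := D.eqv g
  obtain ⟨AA, aa, hAA⟩ := D.per g
  have hpi : ∀ (g : Γ) y, p (g • y) = p y := fun g y => ((D.gal.orb y (g • y)).2 ⟨g, rfl⟩).symm
  have hat : At e (p y) := h.nf.mem
  have haty' : At e (p y') := by rw [hpy]; exact hat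
  have hat' : At e' (p y) := by
    have := h'.nf.mem
    rwa [hpy] at this
  set B' : Cm n → Cm R := fun z => b' (e' (e.symm z)) with hB'
  have hN : IsNF m p v y' e B' γ' := nf_chg D.hv hcov h'.nf haty'
  have hB'y : ∀ᶠ y₂ in 𝓝 y', b' (e' (p y₂)) = B' (e (p y₂)) := by
    filter_upwards [at_ev hcov haty'] with y₂ h2
    simp only [hB', h2.left_inv]
  have hz₀' : e (p y') = e (p y) := by rw [hpy]
  have hsm : Tendsto (fun y₁ => g • y₁) (𝓝 y) (𝓝 y') := by
    have := (D.gal.cont g).continuousAt (x := y)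
    rwa [ContinuousAt, hg] at this
  have key : ∀ᶠ z in 𝓝 (e (p y)), ∀ ξ : Fin R → Cm n,
      (Matrix.of fun i j => fderiv ℂ B' z (ξ j) i).det ^ m • γ' (B' z) =
      (Matrix.of fun i j => fderiv ℂ b z (ξ j) i).det ^ m • U (γ (b z)) := by
    rw [← ev_iff hcov hat]
    filter_upwards [hsm.eventually hN.nf, h.nf.nf, at_ev hcov hat] with y₁ k1 k2 k3 ξ
    have k4 := k1 ξ
    rw [hpi] at k4
    rw [← k4, hU _ _ k3, k2, map_smul]
  have keyt : ∀ᶠ z in 𝓝 (e (p y)), t' (B' z) = AA (t (b z)) + aa := by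
    rw [← ev_iff hcov hat]
    filter_upwards [hsm.eventually (h'.eq.and hB'y), h.eq] with y₁ k1 k2
    obtain ⟨k3, k4⟩ := k1
    rw [k4, hpi] at k3
    rw [← k3, hAA, k2]
  have hban : AnalyticAt ℂ B' (e (p y)) := by rw [← hz₀']; exact hN.ban
  have hbs : Function.Surjective (fderiv ℂ B' (e (p y))) := by rw [← hz₀']; exact hN.bsurj
  have hγan : AnalyticAt ℂ γ' (B' (e (p y))) := by rw [← hz₀']; exact hN.γan
  have himm : γ' (B' (e (p y))) ≠ 0 := by rw [← hz₀']; exact hN.imm.1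
  have hsB : ∀ᶠ z in 𝓝 (e (p y)), Function.Surjective (fderiv ℂ B' z) :=
    hban.fderiv.continuousAt.eventually_mem (surj_isOpen.mem_nhds hbs)
  have hsb : ∀ᶠ z in 𝓝 (e (p y)), Function.Surjective (fderiv ℂ b z) :=
    h.nf.ban.fderiv.continuousAt.eventually_mem (surj_isOpen.mem_nhds h.nf.bsurj)
  have hne : ∀ᶠ z in 𝓝 (e (p y)), γ' (B' z) ≠ 0 :=
    (ContinuousAt.comp (g := γ') hγan.continuousAt hban.continuousAt).eventually_ne himm
  have hker : ∀ᶠ z in 𝓝 (e (p y)), ∀ k, fderiv ℂ b z k = 0 → fderiv ℂ B' z k = 0 := by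
    filter_upwards [key, hsB, hne] with z k1 k2 k3 k hk
    exact ker_sub D.hm k2 k3 k1 hk
  obtain ⟨φ, hφ, hφe⟩ := exists_factor h.nf.ban h.nf.bsurj hban hker
  have hDφ : ∀ᶠ z in 𝓝 (e (p y)), fderiv ℂ B' z = (fderiv ℂ φ (b z)).comp (fderiv ℂ b z) := by
    filter_upwards [hφe.eventually_nhds, h.nf.ban.eventually_analyticAt,
      h.nf.ban.continuousAt.eventually hφ.eventually_analyticAt] with z k1 k2 k3
    have k4 : B' =ᶠ[𝓝 z] fun z => φ (b z) := k1
    rw [k4.fderiv_eq]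
    exact fderiv_comp (𝕜 := ℂ) z (g := φ) k3.differentiableAt k2.differentiableAt
  have hbij : Function.Bijective (fderiv ℂ φ (b (e (p y)))) := by
    have h1 : Function.Surjective (fderiv ℂ φ (b (e (p y)))) := by
      intro w
      obtain ⟨k, hk⟩ := hbs w
      rw [hDφ.self_of_nhds] at hk
      exact ⟨_, hk⟩
    exact ⟨LinearMap.injective_iff_surjective (f := (fderiv ℂ φ (b (e (p y))) :
      Cm R →ₗ[ℂ] Cm R)) |>.2 h1, h1⟩
  have hmap : map b (𝓝 (e (p y))) = 𝓝 (b (e (p y))) :=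
    h.nf.ban.hasStrictFDerivAt.map_nhds_eq_of_surj (LinearMap.range_eq_top.2 h.nf.bsurj)
  have hβ : b' (e' (p y)) = φ (b (e (p y))) := by
    have h1 : B' (e (p y)) = φ (b (e (p y))) := hφe.self_of_nhds
    rw [← h1]
    simp only [hB', hat.left_inv]
  have hC : ∀ᶠ z in 𝓝 (b (e (p y))), U (γ z) = (fderiv ℂ φ z).det ^ m • γ' (φ z) := by
    rw [← hmap, eventually_map]
    filter_upwards [key, hsb, hDφ, hφe] with z k1 k2 k3 k4
    choose ξ hξ using fun j : Fin R => k2 (Pi.single j 1)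
    have k5 := k1 ξ
    have k6 : (Matrix.of fun i j => fderiv ℂ b z (ξ j) i).det = 1 := by
      have : (Matrix.of fun i j => fderiv ℂ b z (ξ j) i) = 1 := by
        ext i j
        rw [Matrix.of_apply, hξ, Matrix.one_apply, Pi.single_apply]
      rw [this, Matrix.det_one]
    have k7 : (Matrix.of fun i j => fderiv ℂ B' z (ξ j) i).det = (fderiv ℂ φ (b z)).det := by
      rw [← det_single]
      congr 1
      ext i j
      rw [Matrix.of_apply, Matrix.of_apply, k3, ContinuousLinearMap.comp_apply, hξ]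
    rw [k6, k7, one_pow, one_smul, k4] at k5
    exact k5.symm
  have hT : ∀ᶠ z in 𝓝 (b (e (p y))), t' (φ z) = AA (t z) + aa := by
    rw [← hmap, eventually_map]
    filter_upwards [keyt, hφe] with z k1 k2
    rw [← k2, k1]
  refine ⟨φ, hφ, hbij, ?_, ⟨g, U, hU, hC, AA, aa, hAA, hT⟩, ?_⟩
  · have h1 : Tendsto e (𝓝 (p y)) (𝓝 (e (p y))) := e.continuousAt hat.2
    filter_upwards [h1.eventually hφe, e.open_source.mem_nhds hat.2] with x k1 k2
    rw [← k1]
    simp only [hB', e.left_inv k2]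
  · intro Z _ _ _ j hj
    obtain ⟨ψ, hψ, hψβ, hψφ, hφψ, hmapφ⟩ := exists_linv hφ hbij
    set β := b (e (p y)) with hβdef
    rw [hβ]
    have hφt : Tendsto φ (𝓝 β) (𝓝 (φ β)) := hφ.continuousAt
    have hlh : IsLocalHomeomorph p := hcov.isLocalHomeomorph
    have hBij : BijOn (fun G : Germ (𝓝 (φ β)) Z => G.compTendsto φ hφt)
        (BrG p v F j γ' t' (φ β)) (BrG p v F j γ t β) := by
      refine ⟨?_, ?_, ?_⟩
      · rintro _ ⟨f, l, hfl, rfl⟩
        exact ⟨fun z => f (φ z), fun z => g⁻¹ • l (φ z),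
          pullN D.hv hj hlh hpi D.gal.cont hAA hU hφ hC hT hfl, rfl⟩
      · intro G₁ _ G₂ _ hG
        induction G₁ using Filter.Germ.inductionOn with | _ f₁
        induction G₂ using Filter.Germ.inductionOn with | _ f₂
        have h1 : (f₁ ∘ φ) =ᶠ[𝓝 β] (f₂ ∘ φ) := Germ.coe_eq.1 hG
        refine Germ.coe_eq.2 ?_
        rw [← hmapφ]
        exact h1
      · rintro _ ⟨f, l, hfl, rfl⟩
        refine ⟨((fun z => f (ψ z) : Cm R → Z) : Germ (𝓝 (φ β)) Z),
          ⟨fun z => f (ψ z), fun z => g • l (ψ z),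
          pushN D.hv hj hlh hpi D.gal.cont hAA hU hφ hψ hψβ hφψ hC hT hfl, rfl⟩, ?_⟩
        refine Germ.coe_eq.2 ?_
        filter_upwards [hψφ] with z hz
        simp only [Function.comp_apply, hz]
    refine ⟨?_, fun k σ => ?_⟩
    · rw [← hBij.image_eq, hBij.injOn.encard_image]
    · have h0 : (∑ᶠ G ∈ BrG p v F j γ' t' (φ β), gval σ (φ β) G) * (fderiv ℂ φ β).det ^ k =
          ∑ᶠ G ∈ BrG p v F j γ' t' (φ β), gval σ (φ β) G * (fderiv ℂ φ β).det ^ k := by
        rw [mul_comm, ← smul_eq_mul, smul_finsum]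
        refine finsum_congr fun G => ?_
        rw [smul_finsum]
        refine finsum_congr fun _ => ?_
        rw [smul_eq_mul, mul_comm]
      unfold trv
      rw [h0]
      refine (finsum_mem_eq_of_bijOn (fun G : Germ (𝓝 (φ β)) Z => G.compTendsto φ hφt) hBij
        fun G hG => ?_).symm
      obtain ⟨f, l, hfl, rfl⟩ := hG
      have hc : At (chartAt (Cm R) (f (φ β)) : Chart R Z) (f (φ β)) :=
        ⟨chart_mem_atlas _ _, mem_chart_source _ _⟩
      have h1 : AnalyticAt ℂ (fun z => chartAt (Cm R) (f (φ β)) (f z)) (φ β) :=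
        analyticAt_chart_map hfl.hol hc
      have h2 : fderiv ℂ (fun z => chartAt (Cm R) (f (φ β)) (f (φ z))) β =
          (fderiv ℂ (fun z => chartAt (Cm R) (f (φ β)) (f z)) (φ β)).comp (fderiv ℂ φ β) :=
        fderiv_comp (𝕜 := ℂ) β (g := fun z => chartAt (Cm R) (f (φ β)) (f z))
          h1.differentiableAt hφ.differentiableAt
      have h3 : ((fderiv ℂ (fun z => chartAt (Cm R) (f (φ β)) (f z)) (φ β)).comp
          (fderiv ℂ φ β)).det = (fderiv ℂ (fun z => chartAt (Cm R) (f (φ β)) (f z)) (φ β)).det *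
            (fderiv ℂ φ β).det := LinearMap.det_comp _ _
      have h4 : gval σ β ((f : Germ (𝓝 (φ β)) Z).compTendsto φ hφt) =
          fval σ β (fun z => f (φ z)) := rfl
      rw [h4, gval_coe]
      unfold fval
      rw [h2, h3, mul_pow]
      ring

end Vale.Agent.P284.H625.N
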