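import Vale.Agent.P284.H625.N.Dat
import Vale.Agent.P284.H837.BrS

/-!
# P284 (helper625), program N: the first branch (`M6N`; proof of helper221)
-/

open scoped Manifold ContDiff Topology
open Filter Set Metric

noncomputable section

namespace Vale.Agent.P284.H625.N

open Vale.Agent.P272.K Vale.Agent.P284.H573 Vale.Agent.P284.H812 Vale.Agent.P284.H837
  Vale.Agent.P284.H221

/-- **(M6)** -/
theorem m6N : M6N := by
  intro n R q m X E Γ _ _ _ _ _ _ H _ _ _ p v F hD y₀ e b γ t hN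
  have hp : IsLocalHomeomorph p := hD.gal.cov.isLocalHomeomorph
  have hpc : Continuous p := hD.gal.cov.continuous
  have hea : ∀ y : E, At e (p y) → ContinuousAt (fun y' => e (p y')) y := fun y hy =>
    (e.continuousAt hy.2).comp hpc.continuousAt
  -- a neighbourhood of `y₀` with the normal form
  have h1 : ∀ᶠ y in 𝓝 y₀, At e (p y) := by
    filter_upwards [hpc.continuousAt.eventually_mem (e.open_source.mem_nhds hN.nf.mem.2)] with y hy
    exact ⟨hN.nf.mem.1, hy⟩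
  have h2 : ∀ᶠ y in 𝓝 y₀, AnalyticAt ℂ b (e (p y)) :=
    (hea y₀ hN.nf.mem).eventually hN.nf.ban.eventually_analyticAt
  obtain ⟨O, hO1, hO2, hO3⟩ := _root_.eventually_nhds_iff.1 ((h1.and h2).and (hN.nf.nf.and hN.eq))
  refine ⟨p '' O, (hp.isOpenMap O hO2).mem_nhds (mem_image_of_mem p hO3), ?_⟩
  intro Z _ _ _ j hj z₁ k hk hW hbij
  obtain ⟨y₁, hy₁, hpy⟩ := hW
  have hk1 : k.symm (k z₁) = z₁ := k.left_inv hk.2
  have hey₁ : At e (p y₁) := (hO1 y₁ hy₁).1.1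
  set φ : Cm R → Cm R := fun z => b (e (j (k.symm z))) with hφ
  have hea1 : At e (j (k.symm (k z₁))) := by rw [hk1, ← hpy]; exact hey₁
  have hφa : AnalyticAt ℂ φ (k z₁) := by
    refine AnalyticAt.fun_comp (g := b) ?_ (analyticAt_map (hj _) hk.1 hk.mem_target hea1)
    rw [hk1, ← hpy]
    exact (hO1 y₁ hy₁).1.2
  obtain ⟨ψ, hψa, hψ0, -, hψ2, -⟩ := exists_linv hφa hbij
  have hβ : φ (k z₁) = b (e (j z₁)) := by
    show b (e (j (k.symm (k z₁)))) = _
    rw [hk1]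
  rw [hβ] at hψa hψ0 hψ2
  set β : Cm R := b (e (j z₁)) with hβd
  set f : Cm R → Z := fun z => k.symm (ψ z) with hf
  have hfβ : f β = z₁ := by
    show k.symm (ψ β) = z₁
    rw [hψ0, hk1]
  have hfh : ContMDiffAt 𝓘(ℂ, Cm R) 𝓘(ℂ, Cm R) ω f β := by
    have h3 : ContMDiffAt 𝓘(ℂ, Cm R) 𝓘(ℂ, Cm R) ω k.symm (ψ β) := by
      rw [hψ0]
      exact chart_symm_contMDiffAt hk.1 hk.mem_target
    exact h3.comp β (contMDiffAt_iff_contDiffAt.2 hψa.contDiffAt)
  obtain ⟨l, hl1, hl2, hl3⟩ := exists_lift hp (u := fun z => j (f z)) (β := β) (y := y₁)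
    (ContinuousAt.comp (g := j) hj.continuous.continuousAt hfh.continuousAt)
    (by rw [hpy]; show j z₁ = j (f β); rw [hfβ])
  have h4 := contMDiffAt_ev hfh
  have h5 : ∀ᶠ z in 𝓝 β, l z ∈ O := by
    refine hl1.eventually_mem (hO2.mem_nhds ?_)
    rw [hl2]; exact hy₁
  have h6 : ∀ᶠ z in 𝓝 β, b (e (p (l z))) = z := by
    filter_upwards [hl3, hψ2] with z a1 a2
    rw [a1]
    exact a2
  refine ⟨(f : Germ (𝓝 β) Z), f, l, ⟨hfh, hl1, hl3, ?_, ?_⟩, rfl⟩
  · filter_upwards [h4, h5, h6.eventually_nhds, hl3.eventually_nhds] with z a1 a2 a3 a4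
    have hh : ContMDiffAt 𝓘(ℂ, Cm R) 𝓘(ℂ, Cm n) ω (fun z => p (l z)) z :=
      ((hj (f z)).comp z a1).congr_of_eventuallyEq a4
    have he : At e (p (l z)) := (hO1 _ a2).1.1
    rw [VE_eq hD.hv hh he, pull_nf (hO1 _ a2).2.1 (hO1 _ a2).1.2 (analyticAt_chart_map hh he)]
    have h7 : (fun z' => b (e (p (l z')))) =ᶠ[𝓝 z] fun z' => z' := a3
    rw [h7.fderiv_eq, fderiv_fun_id, a3.self_of_nhds]
    have h8 : (ContinuousLinearMap.id ℂ (Cm R)).det = 1 := LinearMap.det_id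
    rw [h8, one_pow, one_smul]
  · filter_upwards [h5, h6] with z a1 a2
    rw [(hO1 _ a1).2.2, a2]

end Vale.Agent.P284.H625.N
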