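import Vale.Agent.P284.H625.N.Sp5
import Vale.Agent.P284.H625.N.M1
import Vale.Agent.P284.H625.N.M2
import Vale.Agent.P284.H625.N.M3
import Vale.Agent.P284.H625.N.M6
import Vale.Agent.P284.H553.M4
import Vale.Agent.P284.H275.M5
import Vale.Agent.P284.H625.M7
import Vale.Agent.P284.H451.CntQ
import Vale.Agent.P284.H383.Tr.TrF

/-!
# P284 (helper625), program N, module N1: `SpStmtN`, unconditional
-/

noncomputable section

namespace Vale.Agent.P284.H625.N

theorem secN : SecN :=
  sec_of m1N m2N m3N Vale.Agent.P284.H553.m4Stmt (m5N_of Vale.Agent.P284.H275.m5) m6N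
    Vale.Agent.P284.H625.M7.m7Stmt Vale.Agent.P284.H451.cntStmt Vale.Agent.P284.H383.Tr.trStmt

/-- **SP**, twisted `F`: a special projective manifold has no Hilbert space valued natural form of full
rank with the local finiteness property on a Galois covering. -/
theorem spStmtN : SpStmtN :=
  sp_of m1N m2N m3N Vale.Agent.P284.H553.m4Stmt (m5N_of Vale.Agent.P284.H275.m5) m6N
    Vale.Agent.P284.H625.M7.m7Stmt Vale.Agent.P284.H451.cntStmt Vale.Agent.P284.H383.Tr.trStmt

end Vale.Agent.P284.H625.N
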