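import Vale.Agent.P284.H625.N.Fl

/-!
# P284 (helper625), program N, module N6 (SUM), P1: leaf data in the charts of `X` and of `Y`

`LeafP` is `H378.LeafE` with `PForm` in place of `HForm` (no invariance of the norm along the fibres of
`p`).
-/

open scoped Manifold ContDiff Topology ComplexOrder InnerProductSpace
open Filter Set Metric

noncomputable section

set_option linter.unusedSectionVars false

namespace Vale.Agent.P284.H625.N

open Vale.Agent.P272.K Vale.Agent.P284.H573 Vale.Agent.P284.H619 Vale.Agent.P284.H894.G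
  Vale.Agent.P284.H501 Vale.Agent.P284.H501.Core Vale.Agent.P284.H894.W Vale.Agent.P284.H378
  Vale.Agent.P284.H837 Vale.Agent.P284.H213.Grp

section
variable {n q r k s m : ℕ} {X E G W H : Type} [TopologicalSpace X] [ChartedSpace (Cm n) X]
  [TopologicalSpace E] [Group G] [MulAction G E]
  [NormedAddCommGroup W] [InnerProductSpace ℂ W] [NormedAddCommGroup H] [InnerProductSpace ℂ H]

/-- `LeafE` without the invariance of the norm of `v` along the fibres of `p`. -/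
structure LeafP (s : ℕ) (p : E → X) (F : E → Cm q) (m : ℕ)
    (v : E → Chart n X → (Fin (q + r) → Cm n) → H)
    (U : G → (H →ₗᵢ[ℂ] H)) (ρ : G →* (W ≃ₗᵢ[ℂ] W)) (Θ : E → Chart n X → (Cm n →L[ℂ] W))
    (N : Cm k →L[ℂ] Cm q) (𝒢 : Set E) : Prop where
  form : PForm n (q + r) m p H v
  dim : q + r = s + k
  m_pos : 1 ≤ m
  Ninj : Function.Injective N
  equi : ∀ (g : G) y e, At e (p y) → ∀ ξ, v (g • y) e ξ = U g (v y e ξ)
  triv : ∀ g : G, ρ g = 1 → ∀ y e, At e (p y) → ∀ ξ, v (g • y) e ξ = v y e ξ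
  good : Thin n p 𝒢
  inv : ∀ (g : G), ∀ y ∈ 𝒢, g • y ∈ 𝒢
  chart : ∀ y ∈ 𝒢, ∃ (e : Chart n X) (b : Cm n → Cm (q + r)) (F0 : Cm (q + r) → W)
    (β : Cm (q + r) → Cm s) (γ : Cm s → H) (τ : Cm s → Cm q),
    LC p F m v U ρ Θ N y e b F0 β γ τ

theorem _root_.Vale.Agent.P284.H378.LeafE.toP {p : E → X} {F : E → Cm q}
    {v : E → Chart n X → (Fin (q + r) → Cm n) → H}
    {U : G → (H →ₗᵢ[ℂ] H)} {ρ : G →* (W ≃ₗᵢ[ℂ] W)} {Θ : E → Chart n X → (Cm n →L[ℂ] W)}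
    {N : Cm k →L[ℂ] Cm q} {𝒢 : Set E} (h : LeafE s p F m v U ρ Θ N 𝒢) :
    LeafP s p F m v U ρ Θ N 𝒢 :=
  ⟨HForm.toP h.form, h.dim, h.m_pos, h.Ninj, h.equi, h.triv, h.good, h.inv, h.chart⟩

theorem LeafP.toE {p : E → X} {F : E → Cm q}
    {v : E → Chart n X → (Fin (q + r) → Cm n) → H}
    {U : G → (H →ₗᵢ[ℂ] H)} {ρ : G →* (W ≃ₗᵢ[ℂ] W)} {Θ : E → Chart n X → (Cm n →L[ℂ] W)}
    {N : Cm k →L[ℂ] Cm q} {𝒢 : Set E} (h : LeafP s p F m v U ρ Θ N 𝒢)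
    (inv : ∀ y y₁ e, At e (p y) → p y = p y₁ → ∀ ξ, ‖v y e ξ‖ = ‖v y₁ e ξ‖) :
    LeafE s p F m v U ρ Θ N 𝒢 :=
  ⟨h.form.toH inv, h.dim, h.m_pos, h.Ninj, h.equi, h.triv, h.good, h.inv, h.chart⟩

end

end Vale.Agent.P284.H625.N
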