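import Vale.Agent.P284.H625.N.Fl

/-!
# P284 (helper625), program N, module N6 (SUM), P6: the sum of the translates of a Hilbert space valued
form is a form over `X`
-/

open scoped Manifold ContDiff Topology ComplexOrder InnerProductSpace
open Filter Set Metric

noncomputable section

set_option linter.unusedSectionVars false

namespace Vale.Agent.P284.H625.N

open Vale.Agent.P272.K Vale.Agent.P284.H573 Vale.Agent.P284.H619 Vale.Agent.P284.H894.G
  Vale.Agent.P284.H501 Vale.Agent.P284.H501.Core Vale.Agent.P284.H894.W Vale.Agent.P284.H378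
  Vale.Agent.P284.H837 Vale.Agent.P284.H213.Grp

section
variable {n R m : ℕ} {X E Γ : Type} [TopologicalSpace X] [ChartedSpace (Cm n) X]
  [TopologicalSpace E] [Group Γ] [MulAction Γ E] {p : E → X} {H : Type}
  [NormedAddCommGroup H] [InnerProductSpace ℂ H] {v : E → Chart n X → (Fin R → Cm n) → H}

theorem p_sm (hG : IsGalois Γ p) (γ : Γ) (y : E) : p (γ • y) = p y :=
  ((hG.orb y (γ • y)).2 ⟨γ, rfl⟩).symm

theorem PForm.tw (hG : IsGalois Γ p) (hv : PForm n R m p H v) (γ : Γ) :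
    PForm n R m p H fun y => v (γ • y) := by
  refine ⟨fun y e he => ?_, fun y e e' he he' ξ => ?_, fun y e he A ξ => ?_⟩
  · have he' : At e (p (γ • y)) := by rw [p_sm hG]; exact he
    obtain ⟨f, hf, hf'⟩ := hv.hol _ e he'
    rw [p_sm hG] at hf
    refine ⟨f, hf, ?_⟩
    filter_upwards [(hG.cont γ).continuousAt.eventually hf'] with y' h3 ξ
    rw [h3, p_sm hG]
  · have h1 := hv.change (γ • y) e e' (by rw [p_sm hG]; exact he) (by rw [p_sm hG]; exact he') ξ
    rw [p_sm hG] at h1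
    exact h1
  · exact hv.det _ e (by rw [p_sm hG]; exact he) A ξ

variable {G : Subgroup Γ} [Fintype (Γ ⧸ G)]

theorem PForm.sum (hG : IsGalois Γ p) (hv : PForm n R m p H v) :
    PForm n R m p (Tot G H) (sumV G v) := by
  refine ⟨fun y e he => ?_, fun y e e' he he' ξ => ?_, fun y e he A ξ => ?_⟩
  · have h1 : ∀ i : Γ ⧸ G, ∃ F : Cm n × (Fin R → Cm n) → H,
        (∀ ξ, AnalyticAt ℂ F (e (p y), ξ)) ∧
        ∀ᶠ y' in 𝓝 y, ∀ ξ, v (tr G i • y') e ξ = F (e (p y'), ξ) :=
      fun i => (hv.tw hG (tr G i)).hol y e he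
    choose f hf hf' using h1
    refine ⟨fun x => toTot G fun i => f i x, fun ξ => ?_, ?_⟩
    · exact ((toTot G).analyticAt _).comp (AnalyticAt.pi fun i => hf i ξ)
    · filter_upwards [eventually_all.2 hf'] with y' h3 ξ
      show toTot G (fun i => v (tr G i • y') e ξ) = toTot G fun i => f i (e (p y'), ξ)
      congr 1
      funext i
      exact h3 i ξ
  · show toTot G (fun i => v (tr G i • y) e ξ) = toTot G fun i => v (tr G i • y) e' _
    congr 1
    funext i
    exact (hv.tw hG (tr G i)).change y e e' he he' ξ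
  · show toTot G (fun i => v (tr G i • y) e _) = A.det ^ m • toTot G fun i => v (tr G i • y) e ξ
    rw [← map_smul]
    congr 1
    funext i
    exact (hv.tw hG (tr G i)).det y e he A ξ

variable [G.Normal]

/-- equivariance of the sum under the whole group -/
theorem sumV_equi {U : G → (H →ₗᵢ[ℂ] H)} (hG : IsGalois Γ p)
    (hU : ∀ (g : G) y e, At e (p y) → ∀ ξ, v ((g : Γ) • y) e ξ = U g (v y e ξ)) (γ : Γ) (y : E)
    (e : Chart n X) (he : At e (p y)) (ξ : Fin R → Cm n) :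
    sumV G v (γ • y) e ξ = indU G U γ (sumV G v y e ξ) := by
  ext i
  rw [sumV_apply, indU_apply, sumV_apply, ← mul_smul, tr_mul, mul_smul]
  exact hU _ _ e (by rw [p_sm hG]; exact he) ξ

theorem sumV_eqv {U : G → (H →ₗᵢ[ℂ] H)} (hG : IsGalois Γ p)
    (hU : ∀ (g : G) y e, At e (p y) → ∀ ξ, v ((g : Γ) • y) e ξ = U g (v y e ξ)) :
    Eqv Γ p (sumV G v) := fun γ =>
  ⟨indU G U γ, fun y e he ξ => sumV_equi hG hU γ y e he ξ⟩

/-- the norm of the sum only depends on the point of `X` -/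
theorem sumV_inv (hG : IsGalois Γ p)
    (hU : ∀ (g : G) y e, At e (p y) → ∀ ξ, ‖v ((g : Γ) • y) e ξ‖ = ‖v y e ξ‖) (y y₁ : E)
    (e : Chart n X) (he : At e (p y)) (hy : p y = p y₁) (ξ : Fin R → Cm n) :
    ‖sumV G v y e ξ‖ = ‖sumV G v y₁ e ξ‖ := by
  obtain ⟨γ, rfl⟩ := (hG.orb y y₁).1 hy
  rw [PiLp.norm_eq_of_L2, PiLp.norm_eq_of_L2]
  congr 1
  rw [← Equiv.sum_comp (Equiv.mulRight (γ : Γ ⧸ G)) fun i => ‖sumV G v y e ξ i‖ ^ 2]
  refine Finset.sum_congr rfl fun i _ => ?_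
  show ‖v (tr G (i * (γ : Γ ⧸ G)) • y) e ξ‖ ^ 2 = ‖v (tr G i • γ • y) e ξ‖ ^ 2
  rw [← mul_smul, tr_mul, mul_smul, hU _ _ e (by rw [p_sm hG]; exact he)]

/-- **P6**: the sum of the translates is a form over `X` -/
theorem sumV_hform (hG : IsGalois Γ p) (hv : PForm n R m p H v)
    (hU : ∀ (g : G) y e, At e (p y) → ∀ ξ, ‖v ((g : Γ) • y) e ξ‖ = ‖v y e ξ‖) :
    HForm n R m p (Tot G H) (sumV G v) :=
  (hv.sum hG).toH (sumV_inv hG hU)

end

end Vale.Agent.P284.H625.N
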