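import Vale.Agent.P284.H625.N.FlL
import Vale.Agent.P284.H625.N.SumV
import Vale.Agent.P284.H174.N6.Pot
import Vale.Agent.P284.H494.N.Norm4
import Vale.Agent.P284.H494.N.SumP
import Vale.Agent.P284.H551.N6.Equi
import Vale.Agent.P284.H988.N6.Rel
import Vale.Agent.P284.H988.N.Leaf0
import Vale.Agent.P284.H837.N.L7

/-!
# P284 (helper625), program N, module N6 (SUM): the output
-/

open scoped Manifold ContDiff Topology ComplexOrder InnerProductSpace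
open Filter Set Metric

noncomputable section

set_option linter.unusedSectionVars false

namespace Vale.Agent.P284.H625.N

open Vale.Agent.P272.K Vale.Agent.P284.H573 Vale.Agent.P284.H619 Vale.Agent.P284.H894.G
  Vale.Agent.P284.H501 Vale.Agent.P284.H501.Core Vale.Agent.P284.H894.W Vale.Agent.P284.H378
  Vale.Agent.P284.H837 Vale.Agent.P284.H213.Grp Vale.Agent.P284.H625 Vale.Agent.P284.H885.Ker
  Vale.Agent.P284.H174.N6 Vale.Agent.P284.H988.N Vale.Agent.P284.H494.N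

section
variable {n q : ℕ} {X E Γ : Type} [TopologicalSpace X] [ChartedSpace (Cm n) X]
  [TopologicalSpace E] [Group Γ] [MulAction Γ E] {p : E → X} {F : E → Cm q}
  {G : Subgroup Γ} [Fintype (Γ ⧸ G)] [G.Normal]
  {W : Type} [NormedAddCommGroup W] [InnerProductSpace ℂ W]
  {Θ : E → Chart n X → (Cm n →L[ℂ] W)} {A : Γ → (Cm q ≃ₗ[ℂ] Cm q)} {a : Γ → Cm q}

/-- equivariance of the direct sum under a stable subgroup (proof of helper174) -/
theorem vEqui_sumK (hG : IsGalois Γ p)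
    (hA : ∀ γ y, F (γ • y) = A γ (F y) + a γ)
    {ρ : G →* (W ≃ₗᵢ[ℂ] W)} {t : Cm q} {u : Γ ⧸ G → E → W} {L : Subgroup G}
    (hL : ∀ (γ : Γ), ∀ k ∈ L, MulAut.conjNormal γ k ∈ L)
    (hu : ∀ i, VEqui p F (A (tr G i) t + a (tr G i)) L ρ Θ (u i)) :
    VEqui p F t L ((indR G ρ).comp G.subtype) (sumT G Θ)
      (fun y => toTot G fun i => u i (tr G i • y)) := by
  have hFi : ∀ {y : E} (i : Γ ⧸ G), F y = t → F (tr G i • y) = A (tr G i) t + a (tr G i) :=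
    fun i h => by rw [hA, h]
  have hat : ∀ {y : E} {e : Chart n X} (i : Γ ⧸ G), At e (p y) → At e (p (tr G i • y)) :=
    fun i h => by rw [H174.N6.p_smul hG]; exact h
  refine ⟨fun k hkL y e hy he ξ hξ => ?_, fun k hkL => ?_⟩
  · ext i
    rw [sumT_apply, tr_smul_G, (hu i).form _ (hL (tr G i) k hkL) (tr G i • y) e (hFi i hy)
      (hat i he) ξ (by rw [VS_smul hG hA]; exact hξ)]
    show _ = indR G ρ (k : Γ) (sumT G Θ y e ξ) i
    rw [indR_mem, conj_tr, sumT_apply]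
  · choose b hb using fun i => (hu i).pot _ (hL (tr G i) k hkL)
    refine ⟨toTot G b, fun y hy => ?_⟩
    ext i
    show u i (tr G i • k • y) = indR G ρ (k : Γ) (toTot G fun i => u i (tr G i • y)) i + b i
    rw [tr_smul_G, hb i _ (hFi i hy), indR_mem, conj_tr, toTot_apply]

/-- the potentials of the direct sum -/
theorem sum_potK (hG : IsGalois Γ p) (hA : ∀ γ y, F (γ • y) = A γ (F y) + a γ)
    {ρ : G →* (W ≃ₗᵢ[ℂ] W)} {L : Subgroup G}
    (hL : ∀ (γ : Γ), ∀ k ∈ L, MulAut.conjNormal γ k ∈ L) {M₀ : Set (Cm q)} (hM₀ : IsMeagre M₀)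
    (hpot : ∀ t ∉ M₀, ∃ u : E → W, VPot p F t W Θ u ∧ VEqui p F t L ρ Θ u) :
    ∃ M₁ : Set (Cm q), IsMeagre M₁ ∧ ∀ t ∉ M₁, ∃ u : E → Tot G W,
      VPot p F t (Tot G W) (sumT G Θ) u ∧
        VEqui p F t L ((indR G ρ).comp G.subtype) (sumT G Θ) u := by
  refine ⟨⋃ i : Γ ⧸ G, {t | A (tr G i) t + a (tr G i) ∈ M₀}, isMeagre_iUnion fun i => ?_,
    fun t ht => ?_⟩
  · set φ : Cm q ≃ₜ Cm q := (A (tr G i)).toContinuousLinearEquiv.toHomeomorph.trans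
      (Homeomorph.addRight (a (tr G i))) with hφ
    have h1 : {t | A (tr G i) t + a (tr G i) ∈ M₀} = φ.symm '' M₀ := by
      rw [φ.symm.image_eq_preimage_symm]
      rfl
    rw [h1]
    exact φ.symm.isInducing.isMeagre_image hM₀
  · have h1 : ∀ i : Γ ⧸ G, A (tr G i) t + a (tr G i) ∉ M₀ := fun i h =>
      ht (mem_iUnion.2 ⟨i, h⟩)
    choose u h2 h3 using fun i => hpot _ (h1 i)
    exact ⟨_, vPot_sum hG hA h2, vEqui_sumK hG hA hL h3⟩

end

section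
variable {n q r m : ℕ} {X Y E Γ : Type} [TopologicalSpace X] [TopologicalSpace Y]
  [ChartedSpace (Cm n) X] [ChartedSpace (Cm n) Y] [IsManifold 𝓘(ℂ, Cm n) ω X]
  [IsManifold 𝓘(ℂ, Cm n) ω Y]
  [TopologicalSpace E] [Group Γ] [MulAction Γ E] {p : E → X} {pY : E → Y} {π : Y → X}
  {F : E → Cm q} {G K : Subgroup Γ} [Fintype (Γ ⧸ G)] [G.Normal]
  {W : Type} [NormedAddCommGroup W] [InnerProductSpace ℂ W] [CompleteSpace W]
  {A : Γ →* (Cm q ≃ₗ[ℂ] Cm q)} {c : Γ → Cm q}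
  {w : Chart n X → Cm n → Matrix (Fin n) (Fin n) ℂ} {B : ℝ}

/-- **Output of SUM**: the limit form, summed over the translates under `Γ / G`. -/
structure SumOut (p : E → X) (pY : E → Y) (π : Y → X) (F : E → Cm q) (G K : Subgroup Γ)
    {Wt : Type} [NormedAddCommGroup Wt] [InnerProductSpace ℂ Wt] (ρt : Γ →* (Wt ≃ₗᵢ[ℂ] Wt))
    (St : E → Chart n X → Cm n [⋀^Fin (q + 1)]→L[ℂ] Wt) (Θt : E → Chart n X → (Cm n →L[ℂ] Wt))
    (M₁ : Set (Cm q)) : Prop where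
  relX : SRel p F (ρt.comp G.subtype) St Θt
  relY : SRel pY F (ρt.comp G.subtype) (pb π St) (pb π Θt)
  cent : ∀ g : G, (∀ k ∈ K.subgroupOf G, g * k = k * g) → (ρt.comp G.subtype) g = 1
  meagre : IsMeagre M₁
  pot : ∀ t ∉ M₁, ∃ u : E → Wt, VPot pY F t Wt (pb π Θt) u ∧
    VEqui pY F t (K.subgroupOf G) (ρt.comp G.subtype) (pb π Θt) u
  just : JustK pY F (K.subgroupOf G) (ρt.comp G.subtype) (pb π Θt)
  chg : ∀ y, Reg (n := n) p F y → ChgV p F Θt y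
  equi : ∀ (γ : Γ) y e, Reg (n := n) p F y → At e (p y) → ∀ ξ ∈ VS p F y e,
    Θt (γ • y) e ξ = ρt γ (Θt y e ξ)

theorem fix_pb {W' : Type} [NormedAddCommGroup W'] [InnerProductSpace ℂ W']
    {ρ : G →* (W' ≃ₗᵢ[ℂ] W')} {Θt : E → Chart n X → (Cm n →L[ℂ] W')}
    (het : H885.Etale n π) (hpi : ∀ y, π (pY y) = p y)
    (hch : ∀ y, Reg (n := n) p F y → ChgV p F Θt y) {k : G} {y : E} :
    y ∈ Fix pY F ρ (pb π Θt) k ↔ y ∈ Fix p F ρ Θt k := by
  constructor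
  · rintro ⟨h1, h2⟩
    have h3 := (reg_fl het hpi).1 h1
    refine ⟨h3, fun e he ξ hξ => ?_⟩
    obtain ⟨h4, h5⟩ := br_at het hpi he
    have h6 := h2 _ h4 ξ (by rw [vs_fl hpi h5]; exact hξ)
    rwa [pbT_eq het hpi (hch y h3) h4 h5 hξ] at h6
  · rintro ⟨h1, h2⟩
    refine ⟨(reg_fl het hpi).2 h1, fun e' he ξ hξ => ?_⟩
    obtain ⟨h4, h5⟩ := base_at het hpi he
    exact h2 _ h4 ξ (by rw [← vs_fl hpi h5]; exact hξ)

/-- **(O1)** the limit form on `(Y, G)`, summed over the translates -/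
theorem sum_out (hN : NPkgA Γ G q A c K) (het : H885.Etale n π) (hpi : ∀ y, π (pY y) = p y)
    (hG : IsGalois Γ p) (hGY : IsGalois G pY) (hF : HolB p w F B)
    (hFA : ∀ g y, F (g • y) = A g (F y) + c g) {ρ : G →* (W ≃ₗᵢ[ℂ] W)}
    {S : E → Chart n Y → Cm n [⋀^Fin (q + 1)]→L[ℂ] W} {Θ : E → Chart n Y → (Cm n →L[ℂ] W)}
    {M₀ : Set (Cm q)} (hS : SRel pY F ρ S Θ)
    (hρ : ∀ g : G, (∀ k ∈ K.subgroupOf G, g * k = k * g) → ρ g = 1) (hM₀ : IsMeagre M₀)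
    (hpot : ∀ t ∉ M₀, ∃ u : E → W, VPot pY F t W Θ u ∧ VEqui pY F t (K.subgroupOf G) ρ Θ u) :
    ∃ (ρt : Γ →* (Tot G W ≃ₗᵢ[ℂ] Tot G W))
      (St : E → Chart n X → Cm n [⋀^Fin (q + 1)]→L[ℂ] Tot G W)
      (Θt : E → Chart n X → (Cm n →L[ℂ] Tot G W)) (M₁ : Set (Cm q)),
      SumOut p pY π F G K ρt St Θt M₁ := by
  have hY := hGY.cov.continuous
  have hpg : ∀ (g : G) (y : E), pY (g • y) = pY y := fun g y =>
    ((hGY.orb y (g • y)).2 ⟨g, rfl⟩).symm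
  have hA : ∀ γ y, F (γ • y) = (fun g => A g) γ (F y) + c γ := hFA
  have hc : ∀ (g : G) y, F ((g : Γ) • y) = F y + (fun g : G => c g) g := by
    intro g y
    rw [hFA, hN.dat.one g g.2]
    rfl
  have hS1 := sRel_fl het hY hpi hpg hS
  have hrel := H988.N6.sum_rel hG hF hA hc hS1
  have hch : ∀ y, Reg (n := n) p F y → ChgV p F (sumT G (fl pY π Θ)) y := fun y hy =>
    chgV_of hG.cov hF hrel y hy
  have hKst : ∀ (γ : Γ), ∀ k ∈ K.subgroupOf G, MulAut.conjNormal γ k ∈ K.subgroupOf G := by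
    intro γ k hk
    rw [Subgroup.mem_subgroupOf] at hk ⊢
    rw [MulAut.conjNormal_apply]
    exact hN.normal.conj_mem _ hk γ
  obtain ⟨M₁, hM₁, hpot₁⟩ := sum_potK (Θ := fl pY π Θ) hG hA hKst hM₀ (fun t ht => by
    obtain ⟨u, h1, h2⟩ := hpot t ht
    exact ⟨u, vPot_fl het hY hpi h1, vEqui_fl het hpi hpg h2⟩)
  refine ⟨indR G ρ, sumS G (fun g => A g) (fl pY π S), sumT G (fl pY π Θ), M₁,
    { relX := hrel
      relY := sRel_pb het hY hpi hrel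
      cent := ?_
      meagre := hM₁
      pot := fun t ht => ?_
      just := ?_
      chg := hch
      equi := H551.N6.sumT_equi hG hF hA hc hS1 }⟩
  · intro g hg
    refine indR_cent G ρ hN.normal (fun g' hg' => hρ g' fun k hk => ?_) g fun k hk => ?_
    · exact Subtype.ext (hg' k hk)
    · exact congrArg Subtype.val (hg ⟨k, hN.le hk⟩ hk)
  · obtain ⟨u, h1, h2⟩ := hpot₁ t ht
    exact ⟨u, vPot_pb het hpi h1, vEqui_pb het hpi h2⟩
  · intro N₀ h1 _ h3 h4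
    refine hN.just_sub N₀ ?_ h3 h4
    have h5 : (N₀.map G.subtype).Normal := by
      refine H551.N6.map_normal hG hF hA hc hS1 hN.normal (N₀ := N₀) fun k => ?_
      rw [h1 k, Subgroup.mem_subgroupOf]
      constructor
      · rintro ⟨h6, h7⟩
        exact ⟨h6, fun y hy => (fix_pb het hpi hch).1 (h7 y ((reg_fl het hpi).2 hy))⟩
      · rintro ⟨h6, h7⟩
        exact ⟨h6, fun y hy => (fix_pb het hpi hch).2 (h7 y ((reg_fl het hpi).1 hy))⟩
    intro x g hg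
    have h6 := h5.conj_mem (g : Γ) (Subgroup.mem_map_of_mem _ hg) x
    obtain ⟨g', hg', h7⟩ := Subgroup.mem_map.1 h6
    exact ⟨g', hg', h7⟩

end

section
variable {n q r k s m : ℕ} {X E G W H : Type} [TopologicalSpace X] [ChartedSpace (Cm n) X]
  [TopologicalSpace E] [Group G] [MulAction G E]
  [NormedAddCommGroup W] [InnerProductSpace ℂ W] [NormedAddCommGroup H] [InnerProductSpace ℂ H]

/-- `LeafP` only depends on the values of `Θ` on vertical vectors at regular points -/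
theorem leafP_congr [IsManifold 𝓘(ℂ, Cm n) ω X] {p : E → X} (hp : IsLocalHomeomorph p)
    {F : E → Cm q} {v : E → Chart n X → (Fin (q + r) → Cm n) → H}
    {U : G → (H →ₗᵢ[ℂ] H)} {ρ : G →* (W ≃ₗᵢ[ℂ] W)} {Θ Θ' : E → Chart n X → (Cm n →L[ℂ] W)}
    {N : Cm k →L[ℂ] Cm q} {𝒢 : Set E} (hΘ : ∀ y e, Reg (n := n) p F y → At e (p y) →
      ∀ ξ ∈ VS p F y e, Θ' y e ξ = Θ y e ξ) (h : LeafP s p F m v U ρ Θ N 𝒢) :
    LeafP s p F m v U ρ Θ' N 𝒢 := by
  refine ⟨h.form, h.dim, h.m_pos, h.Ninj, h.equi, h.triv, h.good, h.inv, fun y hy => ?_⟩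
  obtain ⟨e, b, F0, β, γ, τ, l⟩ := h.chart y hy
  refine ⟨e, b, F0, β, γ, τ, l.mem, l.ban, l.bsurj, l.t_eq, l.F0an, ?_, l.F0imm, l.βan, l.βsurj,
    l.trans, l.γan, l.imm, l.v_eq, l.τan, l.leaf, l.sheet⟩
  filter_upwards [l.pot, lc_reg hp l, ep_at hp l.mem] with y' h1 h2 h3 ξ hξ
  rw [hΘ y' e h2 h3 ξ hξ, h1 ξ hξ]

end

section
variable {n q r m : ℕ} {X Y E Γ : Type} [TopologicalSpace X] [TopologicalSpace Y]
  [ChartedSpace (Cm n) X] [ChartedSpace (Cm n) Y] [IsManifold 𝓘(ℂ, Cm n) ω X]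
  [IsManifold 𝓘(ℂ, Cm n) ω Y]
  [TopologicalSpace E] [Group Γ] [MulAction Γ E] {p : E → X} {pY : E → Y} {π : Y → X}
  {F : E → Cm q} {G K : Subgroup Γ} [Fintype (Γ ⧸ G)] [G.Normal]
  {A : Γ →* (Cm q ≃ₗ[ℂ] Cm q)} {c : Γ → Cm q}
  {w : Chart n X → Cm n → Matrix (Fin n) (Fin n) ℂ} {B : ℝ}
  {Wt : Type} [NormedAddCommGroup Wt] [InnerProductSpace ℂ Wt] [CompleteSpace Wt]
  {ρt : Γ →* (Wt ≃ₗᵢ[ℂ] Wt)} {St : E → Chart n X → Cm n [⋀^Fin (q + 1)]→L[ℂ] Wt}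
  {Θt : E → Chart n X → (Cm n →L[ℂ] Wt)} {M₁ : Set (Cm q)}
  {H : Type} [NormedAddCommGroup H] [InnerProductSpace ℂ H] [CompleteSpace H]

/-- **(O2)** the leaf data, summed over the translates -/
theorem leaf_out [Nonempty E] (het : H885.Etale n π) (hpi : ∀ y, π (pY y) = p y)
    (hG : IsGalois Γ p) (hGY : IsGalois G pY) (hF : HolB p w F B)
    (hFA : ∀ g y, F (g • y) = A g (F y) + c g) (hO : SumOut p pY π F G K ρt St Θt M₁)
    {v : E → Chart n Y → (Fin (q + r) → Cm n) → H} {U : G → (H →ₗᵢ[ℂ] H)}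
    {N : Cm 0 →L[ℂ] Cm q} {𝒢 : Set E}
    (hL : LeafE (q + r) pY F m v U (ρt.comp G.subtype) (pb π Θt) N 𝒢) :
    ∃ V : E → Chart n X → (Fin (q + r) → Cm n) → Tot G H,
      HForm n (q + r) m p (Tot G H) V ∧ Eqv Γ p V ∧ H837.N.BrEq π pY V (pb π V) ∧
      ∃ (Ut : G → (Tot G H →ₗᵢ[ℂ] Tot G H)) (𝒢t : Set E), 𝒢t.Nonempty ∧
        LeafE (q + r) pY F m (pb π V) Ut (ρt.comp G.subtype) (pb π Θt) N 𝒢t := by
  have hY := hGY.cov.continuous
  have hpg : ∀ (g : G) (y : E), pY (g • y) = pY y := fun g y =>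
    ((hGY.orb y (g • y)).2 ⟨g, rfl⟩).symm
  have hA : ∀ γ y, F (γ • y) = (fun g => A g) γ (F y) + c γ := hFA
  have h1 := leafP_fl het hGY.cov.isLocalHomeomorph hpi hpg (fun y hy =>
    chgV_pb het hpi (hO.chg y ((reg_fl het hpi).1 hy))) hL.toP
  have h2 : LeafP (q + r) p F m (fl pY π v) U (ρt.comp G.subtype) Θt N 𝒢 := by
    refine leafP_congr hG.cov.isLocalHomeomorph (fun y e hy he ξ hξ => ?_) h1
    obtain ⟨h3, h4⟩ := br_at het hpi he
    exact (pbT_eq het hpi (hO.chg y hy) h3 h4 hξ).symm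
  have hHE : HolE n p F := fun y e he => by
    obtain ⟨f, h1, h2⟩ := H221.holB_an hF y he
    exact ⟨f, h2, h1⟩
  have h3 := leafP_sumV hG hHE hA (fun y e e' hy he he' ξ hξ => hO.chg y hy e e' he he' ξ hξ)
    hO.equi h2
  have h4 := leafP_pb het hY hG.cov.isLocalHomeomorph hpi hO.chg h3
  have hn : ∀ (g : G) y e, At e (p y) → ∀ ξ, ‖fl pY π v ((g : Γ) • y) e ξ‖ = ‖fl pY π v y e ξ‖ :=
    fun g y e he ξ => by
      have := h2.equi g y e he ξ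
      rw [show ((g : Γ) • y : E) = g • y from rfl, this, LinearIsometry.norm_map]
  have hV := sumV_hform (G := G) hG h2.form hn
  have hV' := hV.change
  refine ⟨sumV G (fl pY π v), hV, sumV_eqv (G := G) (U := U) hG fun g y e he ξ =>
    h2.equi g y e he ξ, fun y e' e he hb ξ => pb_eq het hpi hV' he hb ξ, _, _, ?_,
    h4.toE fun y y₁ e he hy ξ => ?_⟩
  · exact Thin.nonempty hGY.cov h4.good
  · obtain ⟨h5, -⟩ := base_at het hpi he
    exact hV.inv y y₁ _ h5 (by rw [← hpi, ← hpi, hy]) ξ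

end

end Vale.Agent.P284.H625.N
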