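import Vale.Agent.P284.H625.N.LeafP
import Vale.Agent.P284.H378.LF
import Vale.Agent.P284.H221.Good

/-!
# P284 (helper625), program N, module N6 (SUM), P1: leaf charts, `ThE` and `LeafP` in the charts of `X`
and of `Y`
-/

open scoped Manifold ContDiff Topology ComplexOrder InnerProductSpace
open Filter Set Metric

noncomputable section

set_option linter.unusedSectionVars false

namespace Vale.Agent.P284.H625.N

open Vale.Agent.P272.K Vale.Agent.P284.H573 Vale.Agent.P284.H619 Vale.Agent.P284.H894.G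
  Vale.Agent.P284.H501 Vale.Agent.P284.H501.Core Vale.Agent.P284.H894.W Vale.Agent.P284.H378
  Vale.Agent.P284.H837 Vale.Agent.P284.H213.Grp Vale.Agent.P284.H625

section
variable {n q r k s m : ℕ} {X Y E G W H : Type} [TopologicalSpace X] [TopologicalSpace Y]
  [ChartedSpace (Cm n) X] [ChartedSpace (Cm n) Y] [TopologicalSpace E] [Group G] [MulAction G E]
  [NormedAddCommGroup W] [InnerProductSpace ℂ W] [NormedAddCommGroup H] [InnerProductSpace ℂ H]
  {p : E → X} {pY : E → Y} {π : Y → X} {F : E → Cm q} {e' : Chart n Y} {e : Chart n X} {y : E}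
  {U : G → (H →ₗᵢ[ℂ] H)} {ρ : G →* (W ≃ₗᵢ[ℂ] W)} {N : Cm k →L[ℂ] Cm q} {b : Cm n → Cm (q + r)}
  {F0 : Cm (q + r) → W} {β : Cm (q + r) → Cm s} {γ : Cm s → H} {τ : Cm s → Cm q}

/-- the points near the centre of a leaf chart are regular -/
theorem lc_reg [IsManifold 𝓘(ℂ, Cm n) ω X] (hp : IsLocalHomeomorph p)
    {v : E → Chart n X → (Fin (q + r) → Cm n) → H} {Θ : E → Chart n X → (Cm n →L[ℂ] W)}
    (h : LC p F m v U ρ Θ N y e b F0 β γ τ) : ∀ᶠ y' in 𝓝 y, Reg (n := n) p F y' := by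
  have h3 := (ep_ev hp h.mem).2 (h.ban.eventually_analyticAt.and
    (H221.surj_eventually h.ban h.bsurj))
  filter_upwards [h3, ep_at hp h.mem, h.t_eq.eventually_nhds] with y' h4 h5 h6
  have hf : H501.Rep p F y' e (fun z => tq (b z)) := ⟨((tqc q r).analyticAt _).comp h4.1, h6⟩
  refine (H338.reg_iff hp h5 hf).2 ?_
  have h7 : fderiv ℂ (fun z => tq (b z)) (e (p y')) = (tqc q r).comp (fderiv ℂ b (e (p y'))) :=
    ((tqc q r).hasFDerivAt.comp _ h4.1.differentiableAt.hasFDerivAt).fderiv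
  rw [h7]
  intro t
  obtain ⟨ξ, hξ⟩ := h4.2 (ins t 0)
  exact ⟨ξ, by rw [ContinuousLinearMap.comp_apply, hξ, tqc_apply, tq_ins]⟩

/-- leaf charts, from `Y` to `X` -/
theorem lc_fl [IsManifold 𝓘(ℂ, Cm n) ω Y] (h : H885.Etale n π) (hY : IsLocalHomeomorph pY)
    (hpi : ∀ y, π (pY y) = p y)
    {v : E → Chart n Y → (Fin (q + r) → Cm n) → H} {Θ : E → Chart n Y → (Cm n →L[ℂ] W)}
    (hv : Chg pY v) (hΘ : ∀ y, Reg (n := n) pY F y → ChgV pY F Θ y)
    (hb : H885.IsBranch π e' e) (k : LC pY F m v U ρ Θ N y e' b F0 β γ τ) :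
    LC p F m (fl pY π v) U ρ (fl pY π Θ) N y e b F0 β γ τ := by
  have h0 := ap hpi hb y
  have hc := hY.continuous
  refine
    { mem := at_dn hpi hb k.mem
      ban := by rw [← h0]; exact k.ban
      bsurj := by rw [← h0]; exact k.bsurj
      t_eq := ?_
      F0an := by rw [← h0]; exact k.F0an
      pot := ?_
      F0imm := by rw [← h0]; exact k.F0imm
      βan := by rw [← h0]; exact k.βan
      βsurj := by rw [← h0]; exact k.βsurj
      trans := by rw [← h0]; exact k.trans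
      γan := by rw [← h0]; exact k.γan
      imm := by rw [← h0]; exact k.imm
      v_eq := ?_
      τan := by rw [← h0]; exact k.τan
      leaf := by rw [← h0]; exact k.leaf
      sheet := by rw [← h0]; exact k.sheet }
  · filter_upwards [k.t_eq] with y' h1
    rw [h1, ap hpi hb]
  · filter_upwards [k.pot, lc_reg hY k, near_src hc k.mem] with y' h1 h2 h3 ξ hξ
    rw [flT_eq h hpi (hΘ y' h2) h3 hb hξ, h1 ξ (by rw [vs_fl hpi hb]; exact hξ), ap hpi hb]
  · filter_upwards [k.v_eq, fl_near h hc hpi hv k.mem hb] with y' h1 h2 ξ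
    rw [h2, h1, ap hpi hb]

/-- leaf charts, from `X` to `Y` -/
theorem lc_pb [IsManifold 𝓘(ℂ, Cm n) ω X] (h : H885.Etale n π) (hY : Continuous pY)
    (hp : IsLocalHomeomorph p) (hpi : ∀ y, π (pY y) = p y)
    {v : E → Chart n X → (Fin (q + r) → Cm n) → H} {Θ : E → Chart n X → (Cm n →L[ℂ] W)}
    (hv : Chg p v) (hΘ : ∀ y, Reg (n := n) p F y → ChgV p F Θ y)
    (hb : H885.IsBranch π e' e) (he : At e' (pY y)) (k : LC p F m v U ρ Θ N y e b F0 β γ τ) :
    LC pY F m (pb π v) U ρ (pb π Θ) N y e' b F0 β γ τ := by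
  have h0 := ap hpi hb y
  refine
    { mem := he
      ban := by rw [h0]; exact k.ban
      bsurj := by rw [h0]; exact k.bsurj
      t_eq := ?_
      F0an := by rw [h0]; exact k.F0an
      pot := ?_
      F0imm := by rw [h0]; exact k.F0imm
      βan := by rw [h0]; exact k.βan
      βsurj := by rw [h0]; exact k.βsurj
      trans := by rw [h0]; exact k.trans
      γan := by rw [h0]; exact k.γan
      imm := by rw [h0]; exact k.imm
      v_eq := ?_
      τan := by rw [h0]; exact k.τan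
      leaf := by rw [h0]; exact k.leaf
      sheet := by rw [h0]; exact k.sheet }
  · filter_upwards [k.t_eq] with y' h1
    rw [h1, ap hpi hb]
  · filter_upwards [k.pot, lc_reg hp k, near_src hY he] with y' h1 h2 h3 ξ hξ
    rw [vs_fl hpi hb] at hξ
    rw [pbT_eq h hpi (hΘ y' h2) h3 hb hξ, h1 ξ hξ, ap hpi hb]
  · filter_upwards [k.v_eq, near_src hY he] with y' h1 h2 ξ
    rw [pb_eq h hpi hv h2 hb, h1, ap hpi hb]

theorem thin_fl (h : H885.Etale n π) (hpi : ∀ y, π (pY y) = p y) {𝒢 : Set E}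
    (hg : Thin n pY 𝒢) : Thin n p 𝒢 := by
  refine ⟨hg.isOpen, fun y e he => ?_⟩
  obtain ⟨h1, h2⟩ := br_at h hpi he
  obtain ⟨j, hj, hj1, hj2⟩ := hg.thin y _ h1
  rw [ap hpi h2] at hj hj1
  exact ⟨j, hj, hj1, by simpa only [ap hpi h2] using hj2⟩

theorem thin_pb (h : H885.Etale n π) (hpi : ∀ y, π (pY y) = p y) {𝒢 : Set E}
    (hg : Thin n p 𝒢) : Thin n pY 𝒢 := by
  refine ⟨hg.isOpen, fun y e he => ?_⟩
  obtain ⟨h1, h2⟩ := base_at h hpi he
  obtain ⟨j, hj, hj1, hj2⟩ := hg.thin y _ h1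
  rw [ap hpi h2]
  exact ⟨j, hj, hj1, by simpa only [ap hpi h2] using hj2⟩

/-- **leaf data, from `Y` to `X`** -/
theorem leafP_fl [IsManifold 𝓘(ℂ, Cm n) ω Y] (h : H885.Etale n π) (hY : IsLocalHomeomorph pY)
    (hpi : ∀ y, π (pY y) = p y) (hpg : ∀ (g : G) (y : E), pY (g • y) = pY y)
    {v : E → Chart n Y → (Fin (q + r) → Cm n) → H} {Θ : E → Chart n Y → (Cm n →L[ℂ] W)}
    {𝒢 : Set E} (hΘ : ∀ y, Reg (n := n) pY F y → ChgV pY F Θ y)
    (hL : LeafP s pY F m v U ρ Θ N 𝒢) :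
    LeafP s p F m (fl pY π v) U ρ (fl pY π Θ) N 𝒢 := by
  refine ⟨hL.form.fl h hY.continuous hpi, hL.dim, hL.m_pos, hL.Ninj, fun g y e he ξ => ?_,
    fun g hg y e he ξ => ?_, thin_fl h hpi hL.good, hL.inv, fun y hy => ?_⟩
  · obtain ⟨h1, h2⟩ := br_at h hpi he
    show v (g • y) (br π e (pY (g • y))) ξ = U g (v y (br π e (pY y)) ξ)
    rw [hpg]
    exact hL.equi g y _ h1 ξ
  · obtain ⟨h1, h2⟩ := br_at h hpi he
    show v (g • y) (br π e (pY (g • y))) ξ = v y (br π e (pY y)) ξ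
    rw [hpg]
    exact hL.triv g hg y _ h1 ξ
  · obtain ⟨e', b, F0, β, γ, τ, k⟩ := hL.chart y hy
    obtain ⟨-, h2⟩ := base_at h hpi k.mem
    exact ⟨_, b, F0, β, γ, τ, lc_fl h hY hpi hL.form.change hΘ h2 k⟩

/-- **leaf data, from `X` to `Y`** -/
theorem leafP_pb [IsManifold 𝓘(ℂ, Cm n) ω X] (h : H885.Etale n π) (hY : Continuous pY)
    (hp : IsLocalHomeomorph p) (hpi : ∀ y, π (pY y) = p y)
    {v : E → Chart n X → (Fin (q + r) → Cm n) → H} {Θ : E → Chart n X → (Cm n →L[ℂ] W)}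
    {𝒢 : Set E} (hΘ : ∀ y, Reg (n := n) p F y → ChgV p F Θ y)
    (hL : LeafP s p F m v U ρ Θ N 𝒢) :
    LeafP s pY F m (pb π v) U ρ (pb π Θ) N 𝒢 := by
  refine ⟨hL.form.pb h hpi, hL.dim, hL.m_pos, hL.Ninj, fun g y e he ξ => ?_,
    fun g hg y e he ξ => ?_, thin_pb h hpi hL.good, hL.inv, fun y hy => ?_⟩
  · exact hL.equi g y _ (base_at h hpi he).1 ξ
  · exact hL.triv g hg y _ (base_at h hpi he).1 ξ
  · obtain ⟨e, b, F0, β, γ, τ, k⟩ := hL.chart y hy
    obtain ⟨h1, h2⟩ := br_at h hpi k.mem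
    exact ⟨_, b, F0, β, γ, τ, lc_pb h hY hp hpi hL.form.change hΘ h2 h1 k⟩

/-- the change of charts of the relative form of `S` -/
theorem chgV_of [IsManifold 𝓘(ℂ, Cm n) ω X] (hp : IsCoveringMap p)
    {w : Chart n X → Cm n → Matrix (Fin n) (Fin n) ℂ} {B : ℝ} (hF : HolB p w F B)
    {S : E → Chart n X → Cm n [⋀^Fin (q + 1)]→L[ℂ] W} {Θ : E → Chart n X → (Cm n →L[ℂ] W)}
    (hS : SRel p F ρ S Θ) (y : E) (hy : Reg (n := n) p F y) : ChgV p F Θ y := by
  intro e e' he he' ξ hξ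
  have hp' := hp.isLocalHomeomorph
  obtain ⟨f', hf'⟩ := rep_exists hF y e' he'
  have hsu' := (H338.reg_iff hp' he' hf').1 hy
  obtain ⟨Θ', hΘ'⟩ := exists_isW (hS.relP he' hf' hsu') hsu'
  obtain ⟨hr, hD, hW⟩ := isW_chart hp' hS.rel.form he he' hf' hΘ'
  have hsu := (H338.reg_iff hp' he hr).1 hy
  have hξ' := (mem_VS' hp he hr).1 hξ
  rw [hS.th y e _ he hr hsu _ hW ξ hξ']
  rw [hD] at hξ'
  exact (hS.th y e' f' he' hf' hsu' _ hΘ' _ hξ').symm

end

end Vale.Agent.P284.H625.N
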