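import Vale.Agent.P284.H625.N.Dat
import Vale.Agent.P284.H837.Sp5

/-!
# P284 (helper625), program N: glue of `SpStmt`, twisted `F`, part 1 (proofs of helper837)
-/

open scoped Manifold ContDiff Topology ComplexOrder
open Filter Set Metric

noncomputable section

namespace Vale.Agent.P284.H625.N

open Vale.Agent.P272.K Vale.Agent.P272.KOD Vale.Agent.P284.H573 Vale.Agent.P284.H812
  Vale.Agent.P284.H451 Vale.Agent.P284.H553 Vale.Agent.P284.H619 Vale.Agent.P284.H894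
  Vale.Agent.P284.H894.G Vale.Agent.P284.H553.LB Vale.Agent.P284.H335 Vale.Agent.P284.H837

variable {n R q m : ℕ} {X E Z Γ : Type} [TopologicalSpace X] [ChartedSpace (Cm n) X]
  [TopologicalSpace E] [TopologicalSpace Z] [ChartedSpace (Cm R) Z] [Group Γ] [MulAction Γ E]
  {H : Type} [NormedAddCommGroup H] [InnerProductSpace ℂ H] {p : E → X}
  {v : E → Chart n X → (Fin R → Cm n) → H} {F : E → Cm q} {j : Z → X}
  [IsManifold 𝓘(ℂ, Cm n) ω X] [IsManifold 𝓘(ℂ, Cm R) ω Z] [CompleteSpace H]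

theorem cnt_eq (hM3 : M3N) (hD : DatN n R q m X E Γ H p v F)
    (hj : ContMDiff 𝓘(ℂ, Cm R) 𝓘(ℂ, Cm n) ω j) {x : X} (D : ND m p v F x) :
    cnt m p v F j x = (BrG p v F j D.γ D.t (D.b (D.e x))).encard := by
  have h : Nonempty (ND m p v F x) := ⟨D⟩
  unfold cnt
  rw [dif_pos h]
  set D' := Classical.choice h
  obtain ⟨φ, -, -, -, -, hφ⟩ := hM3 n R q m X E Γ H p v F hD D.y D'.y
    (by rw [D.hy, D'.hy]) D.e D'.e D.b D'.b D.γ D'.γ D.t D'.t D.nf D'.nf
  have h1 := (hφ Z j hj).1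
  rw [D.hy] at h1
  exact h1.symm

theorem sTr_eq (hM3 : M3N) (hD : DatN n R q m X E Γ H p v F)
    (hj : ContMDiff 𝓘(ℂ, Cm R) 𝓘(ℂ, Cm n) ω j) {k : ℕ} (σ : PSec R k Z) {x : X}
    (D : ND m p v F x) {e : Chart n X} (he : At e x) (ξ : Fin R → Cm n) :
    sTr m p v F j σ x e ξ = trv (BrG p v F j D.γ D.t) σ (D.b (D.e x)) *
      (DM (fun z => D.b (D.e (e.symm z))) (e x) ξ).det ^ k := by
  have h : Nonempty (ND m p v F x) := ⟨D⟩
  unfold sTr
  rw [dif_pos h]
  set D' := Classical.choice h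
  obtain ⟨φ, hφa, -, hb, -, hφ⟩ := hM3 n R q m X E Γ H p v F hD D.y D'.y
    (by rw [D.hy, D'.hy]) D.e D'.e D.b D'.b D.γ D'.γ D.t D'.t D.nf D'.nf
  have h1 := (hφ Z j hj).2 k σ
  rw [D.hy] at h1 hb hφa
  rw [h1]
  have hx : e.symm (e x) = x := he.left_inv
  have hτ : AnalyticAt ℂ (fun z => D.e (e.symm z)) (e x) := (transition he D.mem).analyticAt
  have hg : AnalyticAt ℂ (fun z => D.b (D.e (e.symm z))) (e x) := by
    refine AnalyticAt.fun_comp (g := D.b) ?_ hτ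
    rw [hx]
    exact D.ban
  have h2 : (fun z => D'.b (D'.e (e.symm z))) =ᶠ[𝓝 (e x)]
      fun z => φ (D.b (D.e (e.symm z))) := by
    have h3 : Tendsto e.symm (𝓝 (e x)) (𝓝 x) := by
      have := (e.continuousAt_symm he.mem_target).tendsto
      rwa [hx] at this
    exact h3.eventually hb
  have h4 : (DM (fun z => D'.b (D'.e (e.symm z))) (e x) ξ).det =
      (fderiv ℂ φ (D.b (D.e x))).det * (DM (fun z => D.b (D.e (e.symm z))) (e x) ξ).det := by
    rw [DM_congr h2]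
    have h5 := DM_comp (φ := φ) (g := fun z => D.b (D.e (e.symm z))) (z := e x)
      (by rw [hx]; exact hφa.differentiableAt) hg.differentiableAt ξ
    rw [hx] at h5
    exact h5
  rw [h4]
  ring

end Vale.Agent.P284.H625.N
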