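import Vale.Agent.P284.H625.N.Sp1

/-!
# P284 (helper625), program N: glue of `SpStmt`, twisted `F`, part 2 (proofs of helper837)
-/

open scoped Manifold ContDiff Topology ComplexOrder
open Filter Set Metric

noncomputable section

namespace Vale.Agent.P284.H625.N

open Vale.Agent.P272.K Vale.Agent.P272.KOD Vale.Agent.P284.H573 Vale.Agent.P284.H812
  Vale.Agent.P284.H451 Vale.Agent.P284.H553 Vale.Agent.P284.H619 Vale.Agent.P284.H894
  Vale.Agent.P284.H894.G Vale.Agent.P284.H553.LB Vale.Agent.P284.H335 Vale.Agent.P284.H837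

variable {n R q m : ℕ} {X E Z Γ : Type} [TopologicalSpace X] [ChartedSpace (Cm n) X]
  [TopologicalSpace E] [TopologicalSpace Z] [ChartedSpace (Cm R) Z] [Group Γ] [MulAction Γ E]
  {H : Type} [NormedAddCommGroup H] [InnerProductSpace ℂ H] {p : E → X}
  {v : E → Chart n X → (Fin R → Cm n) → H} {F : E → Cm q} {j : Z → X}
  [IsManifold 𝓘(ℂ, Cm n) ω X] [IsManifold 𝓘(ℂ, Cm R) ω Z] [CompleteSpace H]

/-- the branches over an open set form a family in the sense of helper451 -/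
theorem brFam (hD : DatN n R q m X E Γ H p v F)
    (hj : ContMDiff 𝓘(ℂ, Cm R) 𝓘(ℂ, Cm n) ω j) {γ : Cm R → H} {t : Cm R → Cm q}
    {B : Set (Cm R)} (hγ : ∀ z ∈ B, AnalyticAt ℂ γ z) (ht : ∀ z ∈ B, AnalyticAt ℂ t z)
    {m₁ : ℕ} {N : Chart R Z → Cm R → ℝ} {K : Type} [NormedAddCommGroup K]
    [InnerProductSpace ℂ K] {V : Cm R → K}
    (hb : ∀ z ∈ B, ∀ e f, IsBranch m (NZ v hD.gal.surj j) γ z e f → IsBranch m₁ N V z e f) :
    BrFam m₁ N V B (BrG p v F j γ t) where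
  br := by
    rintro β hβ _ ⟨f, l, h, rfl⟩
    have hc : At (chartAt (Cm R) (f β) : Chart R Z) (f β) :=
      ⟨chart_mem_atlas _ _, mem_chart_source _ _⟩
    refine ⟨chartAt (Cm R) (f β), fun z => chartAt (Cm R) (f β) (f z),
      hb β hβ _ _ (h.isBranch hD.hv hj hD.gal.cov.isLocalHomeomorph hD.gal.surj hc), ?_⟩
    refine Germ.coe_eq.2 ?_
    filter_upwards [h.hol.continuousAt.eventually_mem
      ((chartAt (Cm R) (f β)).open_source.mem_nhds hc.2)] with z hz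
    exact ((chartAt (Cm R) (f β)).left_inv hz).symm
  cont := by
    intro ζ s e f hs hB hbr h0 z hz
    refine BrG_cont hD.hv hj hD.gal.cov hD.hF hs (fun z hz => hγ z (hB hz))
      (fun z hz => ht z (hB hz)) ?_ h0 hz
    intro z hz
    have h1 := hbr z hz
    exact (chart_symm_contMDiffAt h1.mem h1.tgt).comp z h1.an.contDiffAt.contMDiffAt

/-- the segre weight of `NZ` -/
lemma segNZ (hD : DatN n R q m X E Γ H p v F) (hj : ContMDiff 𝓘(ℂ, Cm R) 𝓘(ℂ, Cm n) ω j)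
    (hI : HImmAt R Z H (NZ v hD.gal.surj j)) :
    ∃ (K : Type) (_ : NormedAddCommGroup K) (_ : InnerProductSpace ℂ K) (_ : CompleteSpace K),
      HMet R (m * (R + 2) + 1) Z K (segN (NZ v hD.gal.surj j)) ∧
      HImm R Z K (segN (NZ v hD.gal.surj j)) ∧ HImmAt R Z K (segN (NZ v hD.gal.surj j)) := by
  obtain ⟨K, i1, i2, i3, K', j1, j2, j3, V₁, h1, h2, h3, -⟩ :=
    seg R m Z H (NZ v hD.gal.surj j) (hmet_NZ hD.hv hD.gal.cov.isLocalHomeomorph hD.gal.surj hj) hI H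
      (fun _ => 0) (differentiable_const _)
  exact ⟨K, i1, i2, i3, h1, h2, h3⟩

/-- counting and holomorphic traces over a small ball about a good point -/
theorem ball_of (hM1 : M1N) (hM4 : M4Stmt) (hC : CntStmt) (hT : TrStmt)
    [T2Space Z] [CompactSpace Z] [ConnectedSpace Z]
    (hD : DatN n R q m X E Γ H p v F) (hLF : LFin Γ m p v F)
    (hj : ContMDiff 𝓘(ℂ, Cm R) 𝓘(ℂ, Cm n) ω j) {w : Chart R Z → Cm R → ℝ}
    (hw : IsCanonicalMetric w) (hpos : ∀ e x, At e x → (cHess (w e) (e x)).PosDef)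
    (hI : HImmAt R Z H (NZ v hD.gal.surj j)) {y₀ : E} {e : Chart n X} {b : Cm n → Cm R}
    {γ : Cm R → H} {t : Cm R → Cm q} (h : NFF m p v F y₀ e b γ t) :
    ∃ r > 0, ∃ d : ℕ, (∀ β ∈ ball (b (e (p y₀))) r, (BrG p v F j γ t β).encard ≤ d) ∧
      (ball (b (e (p y₀))) r ⊆
        closure {β | β ∈ ball (b (e (p y₀))) r ∧ (BrG p v F j γ t β).encard = d}) ∧
      ∀ (k : ℕ) (σ : PSec R k Z) (C : ℝ) (l : ℕ), 1 ≤ l →
        (∀ e x, At e x → (‖σ.coeff e (e x)‖ ^ 2) ^ (m * (R + 2) + 1) ≤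
          C * segN (NZ v hD.gal.surj j) e (e x) ^ k * (segN (NZ v hD.gal.surj j) e (e x) *
            Real.exp (-((m * (R + 2) + 1 : ℕ) : ℝ) * w e (e x))) ^ l) →
        DifferentiableOn ℂ (trv (BrG p v F j γ t) σ) (ball (b (e (p y₀))) r) := by
  obtain ⟨K, i1, i2, i3, hmet, himm, hIK⟩ := segNZ hD hj hI
  have hm₁ : 1 ≤ m * (R + 2) + 1 := by omega
  obtain ⟨M, τ, -, hτ, ⟨C, -, hτC⟩, -, -⟩ := jetZ R (m * (R + 2) + 1) hD.hR hm₁ Z hw hpos K hmet hIK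
  obtain ⟨r₁, hr₁, N₀, hmult⟩ := hM1 n R q m X E Γ H p v F hD hLF Z j hj y₀ e b γ t h
  set β₀ := b (e (p y₀)) with hβ₀
  obtain ⟨r₂, hr₂, hball⟩ := Metric.eventually_nhds_iff_ball.1
    (h.nf.γan.eventually_analyticAt.and ((h.nf.imm.eventually h.nf.γan).and
      h.tan.eventually_analyticAt))
  set ρ := min r₁ r₂ with hρ
  have hρ0 : 0 < ρ := lt_min hr₁ hr₂
  have hB : ∀ z ∈ ball β₀ ρ, AnalyticAt ℂ γ z ∧ ImmAt γ z ∧ AnalyticAt ℂ t z := fun z hz =>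
    hball z (ball_subset_ball (min_le_right _ _) hz)
  obtain ⟨K', j1, j2, j3, V, hVd, hVi, -, hVb⟩ := hM4 R m Z H (NZ v hD.gal.surj j)
    (hmet_NZ hD.hv hD.gal.cov.isLocalHomeomorph hD.gal.surj hj) (ball β₀ ρ) isOpen_ball γ
    (fun z hz => (hB z hz).1.differentiableAt.differentiableWithinAt) (fun z hz => (hB z hz).2.1)
  have hsub : ball β₀ (ρ / 2) ⊆ ball β₀ ρ := ball_subset_ball (by linarith)
  have hfam : BrFam (m * (R + 2) + 1) (segN (NZ v hD.gal.surj j)) V (ball β₀ (ρ / 2))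
      (BrG p v F j γ t) :=
    brFam hD hj (fun z hz => (hB z (hsub hz)).1) (fun z hz => (hB z (hsub hz)).2.2)
      fun z hz => hVb z (hsub hz)
  have hmult' : BrMult (ball β₀ (ρ / 2)) (BrG p v F j γ t) N₀ := by
    intro x
    refine (Set.encard_le_encard ?_).trans (hmult x)
    rintro ⟨z, g⟩ ⟨h1, h2⟩
    exact ⟨ball_subset_ball (by have := min_le_left r₁ r₂; linarith) h1, h2⟩
  obtain ⟨d, hd1, hd2⟩ := hC R (m * (R + 2) + 1) M hD.hR hm₁ Z w hw hpos τ hτ K _ hmet himm C hτC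
    K' V β₀ (ρ / 2) ρ (by linarith) (by linarith) hVd hVi _ hfam N₀ hmult'
  refine ⟨ρ / 2, by linarith, d, hd1, hd2, fun k σ C' l hl hσ => ?_⟩
  exact hT R (m * (R + 2) + 1) hD.hR hm₁ Z w hw hpos K _ hmet himm K' V β₀ (ρ / 2) ρ (by linarith)
    (by linarith) hVd hVi _ hfam d hd1 hd2 k σ C' l hl hσ

end Vale.Agent.P284.H625.N
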