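import Vale.Agent.P284.H625.N.Sp2

/-!
# P284 (helper625), program N: glue of `SpStmt`, twisted `F`, part 3 (proofs of helper837)
-/

open scoped Manifold ContDiff Topology ComplexOrder
open Filter Set Metric

noncomputable section

namespace Vale.Agent.P284.H625.N

open Vale.Agent.P272.K Vale.Agent.P272.KOD Vale.Agent.P284.H573 Vale.Agent.P284.H812
  Vale.Agent.P284.H451 Vale.Agent.P284.H553 Vale.Agent.P284.H619 Vale.Agent.P284.H894
  Vale.Agent.P284.H894.G Vale.Agent.P284.H553.LB Vale.Agent.P284.H335 Vale.Agent.P284.H837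

variable {n R q m : ℕ} {X E Z Γ : Type} [TopologicalSpace X] [ChartedSpace (Cm n) X]
  [TopologicalSpace E] [TopologicalSpace Z] [ChartedSpace (Cm R) Z] [Group Γ] [MulAction Γ E]
  {H : Type} [NormedAddCommGroup H] [InnerProductSpace ℂ H] {p : E → X}
  {v : E → Chart n X → (Fin R → Cm n) → H} {F : E → Cm q} {j : Z → X}
  [IsManifold 𝓘(ℂ, Cm n) ω X] [IsManifold 𝓘(ℂ, Cm R) ω Z] [CompleteSpace H]

theorem glob_d (hM3 : M3N) (hD : DatN n R q m X E Γ H p v F)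
    (hj : ContMDiff 𝓘(ℂ, Cm R) 𝓘(ℂ, Cm n) ω j)
    (hball : ∀ (y₀ : E) (e : Chart n X) (b : Cm n → Cm R) (γ : Cm R → H) (t : Cm R → Cm q),
      NFF m p v F y₀ e b γ t → ∃ r > 0, ∃ d : ℕ,
        (∀ β ∈ ball (b (e (p y₀))) r, (BrG p v F j γ t β).encard ≤ d) ∧
        (ball (b (e (p y₀))) r ⊆
          closure {β | β ∈ ball (b (e (p y₀))) r ∧ (BrG p v F j γ t β).encard = d}))
    (hconn : IsPreconnected (GoodX p R m v))
    (hall : ∀ (y : E) (e : Chart n X) (b : Cm n → Cm R) (γ : Cm R → H),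
      IsNF m p v y e b γ → ∃ t : Cm R → Cm q, NFF m p v F y e b γ t) :
    ∃ d : ℕ, ∀ (x : X) (D : ND m p v F x), (BrG p v F j D.γ D.t (D.b (D.e x))).encard ≤ d := by
  set P : ℕ → X → Prop := fun d x => ∃ U ∈ 𝓝 x, (∀ x' ∈ U, cnt m p v F j x' ≤ d) ∧
    U ∩ GoodX p R m v ⊆ closure {x' | x' ∈ GoodX p R m v ∧ cnt m p v F j x' = d} with hP
  have h1 : ∀ x ∈ GoodX p R m v, ∃ d, P d x := by
    intro x hx
    obtain ⟨D⟩ := exists_ND hall hx
    obtain ⟨r, hr, d, h1, h2⟩ := hball D.y D.e D.b D.γ D.t D.nf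
    rw [D.hy] at h1 h2
    have hU : ∀ᶠ x' in 𝓝 x, (∃ y, p y = x' ∧ NFF m p v F y D.e D.b D.γ D.t) ∧
        D.b (D.e x') ∈ ball (D.b (D.e x)) r := by
      have a1 := D.nf.evX hD.gal.cov
      rw [D.hy] at a1
      have a2 : Tendsto (fun x' => D.b (D.e x')) (𝓝 x) (𝓝 (D.b (D.e x))) := by
        have a3 := be_map D.mem D.ban (by have := D.nf.nf.bsurj; rwa [D.hy] at this)
        exact a3.le
      exact a1.and (a2.eventually_mem (ball_mem_nhds _ hr))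
    have hcnt : ∀ x', (∃ y, p y = x' ∧ NFF m p v F y D.e D.b D.γ D.t) →
        cnt m p v F j x' = (BrG p v F j D.γ D.t (D.b (D.e x'))).encard := by
      rintro x' ⟨y, hy, hn⟩
      exact cnt_eq hM3 hD hj ⟨y, D.e, D.b, D.γ, D.t, hy, hn⟩
    refine ⟨d, _, eventually_eventually_nhds.2 hU, ?_, ?_⟩
    · intro x' hx'
      obtain ⟨a1, a2⟩ := (show ∀ᶠ x'' in 𝓝 x', _ from hx').self_of_nhds
      rw [hcnt x' a1]
      exact h1 _ a2
    · rintro x' ⟨hx', -⟩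
      have hx'' : ∀ᶠ x'' in 𝓝 x', (∃ y, p y = x'' ∧ NFF m p v F y D.e D.b D.γ D.t) ∧
        D.b (D.e x'') ∈ ball (D.b (D.e x)) r := hx'
      obtain ⟨⟨y', hy', hn'⟩, a2⟩ := hx''.self_of_nhds
      have a3 := be_map (x := x') (hy' ▸ hn'.nf.mem) (hy' ▸ hn'.nf.ban) (hy' ▸ hn'.nf.bsurj)
      rw [mem_closure_iff_frequently]
      have a4 : ∃ᶠ β in 𝓝 (D.b (D.e x')), β ∈ ball (D.b (D.e x)) r ∧
        (BrG p v F j D.γ D.t β).encard = d := mem_closure_iff_frequently.1 (h2 a2)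
      rw [← a3, frequently_map] at a4
      refine (a4.and_eventually hx'').mono ?_
      rintro x'' ⟨⟨b1, b2⟩, ⟨y'', b3, b4⟩, b5⟩
      refine ⟨⟨y'', b3, D.e, D.b, D.γ, b4.nf⟩, ?_⟩
      rw [hcnt x'' ⟨y'', b3, b4⟩]
      exact b2
  have h2 : ∀ d, IsOpen {x | P d x} := by
    intro d
    rw [isOpen_iff_mem_nhds]
    rintro x ⟨U, hU, hU1, hU2⟩
    filter_upwards [eventually_mem_nhds_iff.2 hU] with x' hx'
    exact ⟨U, hx', hU1, hU2⟩
  have h3 : ∀ x ∈ GoodX p R m v, ∀ d d', P d x → P d' x → d ≤ d' := by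
    rintro x hx d d' ⟨U, hU, hU1, hU2⟩ ⟨U', hU', hU1', hU2'⟩
    obtain ⟨x', ⟨-, h4⟩, h5⟩ := ((mem_closure_iff_frequently.1
      (hU2 ⟨mem_of_mem_nhds hU, hx⟩)).and_eventually hU').exists
    have h6 := hU1' x' h5
    rw [h4] at h6
    exact_mod_cast h6
  rcases (GoodX p R m v).eq_empty_or_nonempty with hem | ⟨x₀, hx₀⟩
  · refine ⟨0, fun x D => ?_⟩
    have := D.good
    rw [hem] at this
    exact absurd this (notMem_empty _)
  obtain ⟨d₀, hd₀⟩ := h1 x₀ hx₀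
  refine ⟨d₀, fun x D => ?_⟩
  suffices h : P d₀ x by
    obtain ⟨U, hU, hU1, -⟩ := h
    rw [← cnt_eq hM3 hD hj D]
    exact hU1 x (mem_of_mem_nhds hU)
  by_contra hcon
  obtain ⟨d₁, hd₁⟩ := h1 x D.good
  have hne : d₁ ≠ d₀ := by
    rintro rfl
    exact hcon hd₁
  obtain ⟨z, hzG, hzA, hzB⟩ := hconn {x | P d₀ x} (⋃ d ∈ {d | d ≠ d₀}, {x | P d x}) (h2 d₀)
    (isOpen_biUnion fun d _ => h2 d) (by
      intro z hz
      obtain ⟨d, hd⟩ := h1 z hz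
      by_cases h : d = d₀
      · left; rw [← h]; exact hd
      · right; exact mem_biUnion (show d ∈ {d | d ≠ d₀} from h) hd)
    ⟨x₀, hx₀, hd₀⟩ ⟨x, D.good, mem_biUnion (show d₁ ∈ {d | d ≠ d₀} from hne) hd₁⟩
  obtain ⟨d, hd, hdz⟩ := mem_iUnion₂.1 hzB
  exact hd (le_antisymm (h3 z hzG d d₀ hdz hzA) (h3 z hzG d₀ d hzA hdz))

end Vale.Agent.P284.H625.N
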