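import Vale.Agent.P284.H625.N.Sp3

/-!
# P284 (helper625), program N: glue of `SpStmt`, twisted `F`, part 4 (proofs of helper837)
-/

open scoped Manifold ContDiff Topology ComplexOrder
open Filter Set Metric

noncomputable section

namespace Vale.Agent.P284.H625.N

open Vale.Agent.P272.K Vale.Agent.P272.KOD Vale.Agent.P284.H573 Vale.Agent.P284.H812
  Vale.Agent.P284.H451 Vale.Agent.P284.H553 Vale.Agent.P284.H619 Vale.Agent.P284.H894
  Vale.Agent.P284.H894.G Vale.Agent.P284.H553.LB Vale.Agent.P284.H335 Vale.Agent.P284.H837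

variable {n R q m : ℕ} {X E Z Γ : Type} [TopologicalSpace X] [ChartedSpace (Cm n) X]
  [TopologicalSpace E] [TopologicalSpace Z] [ChartedSpace (Cm R) Z] [Group Γ] [MulAction Γ E]
  {H : Type} [NormedAddCommGroup H] [InnerProductSpace ℂ H] {p : E → X}
  {v : E → Chart n X → (Fin R → Cm n) → H} {F : E → Cm q} {j : Z → X}
  [IsManifold 𝓘(ℂ, Cm n) ω X] [IsManifold 𝓘(ℂ, Cm R) ω Z] [CompleteSpace H]

/-- the bound of the trace at one point -/
theorem trv_bound [CompactSpace Z] (hM4 : M4Stmt) (hD : DatN n R q m X E Γ H p v F)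
    (hj : ContMDiff 𝓘(ℂ, Cm R) 𝓘(ℂ, Cm n) ω j) {w : Chart R Z → Cm R → ℝ}
    (hw : IsCanonicalMetric w) (hI : HImmAt R Z H (NZ v hD.gal.surj j)) {d k : ℕ} (σ : PSec R k Z)
    {C : ℝ} {l : ℕ} (hσ : SBd (segN (NZ v hD.gal.surj j)) w (m * (R + 2) + 1) σ C l) :
    ∃ A : ℝ, 0 ≤ A ∧ ∀ (x : X) (D : ND m p v F x),
      (BrG p v F j D.γ D.t (D.b (D.e x))).encard ≤ d →
      (‖trv (BrG p v F j D.γ D.t) σ (D.b (D.e x))‖ ^ 2) ^ (m * (R + 2) + 1) ≤
        A * (‖D.γ (D.b (D.e x))‖ ^ 2 * (gm (frame D.γ (D.b (D.e x)))).det.re) ^ k := by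
  obtain ⟨K, i1, i2, i3, hmet, himm, hIK⟩ := segNZ hD hj hI
  set N := segN (NZ v hD.gal.surj j) with hN
  set m₁ := m * (R + 2) + 1 with hm₁
  obtain ⟨B, hB0, hB⟩ := ratio_bdd hmet hw
  refine ⟨((d : ℝ) ^ 2) ^ m₁ * (|C| * B ^ l), by positivity, fun x D hd => ?_⟩
  set β := D.b (D.e x) with hβ
  have hγa : AnalyticAt ℂ D.γ β := by
    have := D.nf.nf.γan; rwa [D.hy] at this
  have hγi : ImmAt D.γ β := by
    have := D.nf.nf.imm; rwa [D.hy] at this
  obtain ⟨r₂, hr₂, hball⟩ := Metric.eventually_nhds_iff_ball.1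
    (hγa.eventually_analyticAt.and (hγi.eventually hγa))
  obtain ⟨K', j1, j2, j3, V, hVd, hVi, hVn, hVb⟩ := hM4 R m Z H (NZ v hD.gal.surj j)
    (hmet_NZ hD.hv hD.gal.cov.isLocalHomeomorph hD.gal.surj hj) (ball β r₂) isOpen_ball D.γ
    (fun z hz => (hball z hz).1.differentiableAt.differentiableWithinAt)
    (fun z hz => (hball z hz).2)
  rw [← hVn β]
  have hmain : ∀ g ∈ BrG p v F j D.γ D.t β, (‖gval σ β g‖ ^ 2) ^ m₁ ≤
      |C| * B ^ l * (‖V β‖ ^ 2) ^ k := by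
    rintro _ ⟨f, lf, h, rfl⟩
    have hc : At (chartAt (Cm R) (f β) : Chart R Z) (f β) :=
      ⟨chart_mem_atlas _ _, mem_chart_source _ _⟩
    have hbr := hVb β (mem_ball_self hr₂) _ _
      (h.isBranch hD.hv hj hD.gal.cov.isLocalHomeomorph hD.gal.surj hc)
    have h1 := hbr.eq.self_of_nhds
    set e := (chartAt (Cm R) (f β) : Chart R Z) with he
    set J := (fderiv ℂ (fun z => e (f z)) β).det with hJ
    have h1' : N e (e (f β)) * (‖J‖ ^ 2) ^ m₁ = ‖V β‖ ^ 2 := h1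
    have h2 : gval σ β (f : Germ (𝓝 β) Z) = σ.coeff e (e (f β)) * J ^ k := rfl
    have h3 := hσ e (f β) hc
    have h4 := hB e (f β) hc
    have h5 : 0 ≤ N e (e (f β)) := hmet.nonneg hc
    have h6 : 0 ≤ N e (e (f β)) * Real.exp (-(m₁ : ℝ) * w e (e (f β))) := by positivity
    rw [h2, norm_mul, norm_pow, mul_pow, mul_pow]
    calc (‖σ.coeff e (e (f β))‖ ^ 2) ^ m₁ * ((‖J‖ ^ k) ^ 2) ^ m₁
        = (‖σ.coeff e (e (f β))‖ ^ 2) ^ m₁ * ((‖J‖ ^ 2) ^ m₁) ^ k := by
          congr 1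
          rw [← pow_mul, ← pow_mul, ← pow_mul, ← pow_mul]
          congr 1; ring
      _ ≤ (|C| * N e (e (f β)) ^ k * B ^ l) * ((‖J‖ ^ 2) ^ m₁) ^ k := by
          refine mul_le_mul_of_nonneg_right (h3.trans ?_) (by positivity)
          calc C * N e (e (f β)) ^ k * (N e (e (f β)) *
                Real.exp (-(m₁ : ℝ) * w e (e (f β)))) ^ l
              ≤ |C| * N e (e (f β)) ^ k * (N e (e (f β)) *
                Real.exp (-(m₁ : ℝ) * w e (e (f β)))) ^ l := by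
                gcongr
                exact le_abs_self C
            _ ≤ _ := by gcongr
      _ = |C| * B ^ l * (N e (e (f β)) * (‖J‖ ^ 2) ^ m₁) ^ k := by rw [mul_pow]; ring
      _ = _ := by rw [h1']
  rcases sum_bound (by positivity) hd hmain with h | ⟨-, h⟩
  · refine (show _ ≤ _ from h).trans (le_of_eq ?_)
    ring
  · have h' : trv (BrG p v F j D.γ D.t) σ β = 0 := h
    rw [h']
    simp only [norm_zero, ne_eq, OfNat.ofNat_ne_zero, not_false_eq_true, zero_pow]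
    rw [zero_pow (by omega)]
    positivity

theorem lsec_of (hM3 : M3N) (hM4 : M4Stmt) (hM5 : M5N) [CompactSpace Z]
    (hD : DatN n R q m X E Γ H p v F)
    (hj : ContMDiff 𝓘(ℂ, Cm R) 𝓘(ℂ, Cm n) ω j) {w : Chart R Z → Cm R → ℝ}
    (hw : IsCanonicalMetric w) (hI : HImmAt R Z H (NZ v hD.gal.surj j))
    (hall : ∀ (y : E) (e : Chart n X) (b : Cm n → Cm R) (γ : Cm R → H),
      IsNF m p v y e b γ → ∃ t : Cm R → Cm q, NFF m p v F y e b γ t)
    {d : ℕ} (hd : ∀ (x : X) (D : ND m p v F x),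
      (BrG p v F j D.γ D.t (D.b (D.e x))).encard ≤ d)
    {k : ℕ} (σ : PSec R k Z)
    {C : ℝ} {l : ℕ} (hσ : SBd (segN (NZ v hD.gal.surj j)) w (m * (R + 2) + 1) σ C l)
    (hdiff : ∀ (y₀ : E) (e : Chart n X) (b : Cm n → Cm R) (γ : Cm R → H) (t : Cm R → Cm q),
      NFF m p v F y₀ e b γ t → AnalyticAt ℂ (trv (BrG p v F j γ t) σ) (b (e (p y₀)))) :
    LSec p R m k v (sTr m p v F j σ) where
  nf := by
    intro x hx e he
    obtain ⟨D⟩ := exists_ND hall hx
    have h0 := D.nf.chg hD.hv hD.gal.cov (e := e) (by rw [D.hy]; exact he)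
    set b : Cm n → Cm R := fun z => D.b (D.e (e.symm z)) with hb
    have h1 := hdiff _ _ _ _ _ h0
    have h2 : AnalyticAt ℂ b (e x) := by have := h0.nf.ban; rwa [D.hy] at this
    rw [D.hy] at h1
    refine ⟨D.y, b, D.γ, fun z => trv (BrG p v F j D.γ D.t) σ (b z), D.hy, h0.nf,
      AnalyticAt.fun_comp (g := trv (BrG p v F j D.γ D.t) σ) h1 h2, ?_⟩
    have h3 := h0.evX hD.gal.cov
    rw [D.hy] at h3
    filter_upwards [h3, e.open_source.mem_nhds he.2] with x' ⟨y, hy, hn⟩ hx' ξ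
    have he' : At e x' := ⟨he.1, hx'⟩
    rw [sTr_eq hM3 hD hj σ ⟨y, e, b, D.γ, D.t, hy, hn⟩ he' ξ, mul_comm]
    congr 2
    have h4 : (fun z => b (e (e.symm z))) =ᶠ[𝓝 (e x')] b := by
      filter_upwards [e.open_target.mem_nhds he'.mem_target] with z hz
      rw [e.right_inv hz]
    rw [DM_congr h4]
  change := by
    intro x hx e e' he he' ξ
    obtain ⟨D⟩ := exists_ND hall hx
    rw [sTr_eq hM3 hD hj σ D he, sTr_eq hM3 hD hj σ D he']
    congr 2
    have hx' : e.symm (e x) = x := he.left_inv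
    have hτ : AnalyticAt ℂ (fun z => e' (e.symm z)) (e x) := (transition he he').analyticAt
    have hτ' : AnalyticAt ℂ (fun z => D.e (e'.symm z)) (e' x) := (transition he' D.mem).analyticAt
    have h1 : (fun z => D.b (D.e (e.symm z))) =ᶠ[𝓝 (e x)]
        fun z => (fun u => D.b (D.e (e'.symm u))) (e' (e.symm z)) := by
      filter_upwards [he.nhds_at he'] with z hz
      rw [hz.2.2.left_inv]
    have h2 : AnalyticAt ℂ (fun u => D.b (D.e (e'.symm u))) (e' x) := by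
      refine AnalyticAt.fun_comp (g := D.b) ?_ hτ'
      rw [he'.left_inv]
      exact D.ban
    rw [DM_congr h1, DM_comp' (b := fun u => D.b (D.e (e'.symm u)))
      (τ := fun z => e' (e.symm z)) (by rw [hx']; exact h2.differentiableAt)
      hτ.differentiableAt, hx']
  bdd := by
    intro x e he ξ
    obtain ⟨C₅, h5⟩ := hM5 n R q m X E Γ H p v F hD x e he ξ
    obtain ⟨A, hA, hAb⟩ := trv_bound hM4 hD hj hw hI (d := d) σ hσ
    refine ⟨max 1 (A * |C₅| ^ k), ?_⟩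
    filter_upwards [h5, e.open_source.mem_nhds he.2] with x' h6 hx' hg
    have he' : At e x' := ⟨he.1, hx'⟩
    obtain ⟨D⟩ := exists_ND hall hg
    have h7 := h6 D.y D.e D.b D.γ D.hy D.nf.nf
    have h8 := hAb x' D (hd x' D)
    rw [sTr_eq hM3 hD hj σ D he' ξ]
    set T := trv (BrG p v F j D.γ D.t) σ (D.b (D.e x')) with hT
    set J := (DM (fun z => D.b (D.e (e.symm z))) (e x') ξ).det with hJ
    set G := ‖D.γ (D.b (D.e x'))‖ ^ 2 * (gm (frame D.γ (D.b (D.e x')))).det.re with hG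
    have hG0 : 0 ≤ G := by
      refine mul_nonneg (by positivity) ?_
      exact (Complex.nonneg_iff.1 (gm_det_nonneg _)).1
    have h9 : (‖T * J ^ k‖ ^ 2) ^ (m * (R + 2) + 1) ≤ A * |C₅| ^ k := by
      rw [norm_mul, norm_pow, mul_pow, mul_pow]
      calc (‖T‖ ^ 2) ^ (m * (R + 2) + 1) * ((‖J‖ ^ k) ^ 2) ^ (m * (R + 2) + 1)
          = (‖T‖ ^ 2) ^ (m * (R + 2) + 1) * ((‖J‖ ^ 2) ^ (m * (R + 2) + 1)) ^ k := by
            congr 1
            rw [← pow_mul, ← pow_mul, ← pow_mul, ← pow_mul]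
            congr 1; ring
        _ ≤ (A * G ^ k) * ((‖J‖ ^ 2) ^ (m * (R + 2) + 1)) ^ k := by gcongr
        _ = A * (G * (‖J‖ ^ 2) ^ (m * (R + 2) + 1)) ^ k := by rw [mul_pow]; ring
        _ ≤ A * |C₅| ^ k := by
            gcongr
            exact h7.trans (le_abs_self _)
    by_contra hcon
    push Not at hcon
    have h10 : 1 < ‖T * J ^ k‖ := lt_of_le_of_lt (le_max_left _ _) hcon
    have h11 : A * |C₅| ^ k < ‖T * J ^ k‖ := lt_of_le_of_lt (le_max_right _ _) hcon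
    have h12 : ‖T * J ^ k‖ ≤ (‖T * J ^ k‖ ^ 2) ^ (m * (R + 2) + 1) := by
      rw [← pow_mul]
      exact le_self_pow₀ h10.le (by omega)
    linarith

end Vale.Agent.P284.H625.N
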