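import Vale.Agent.P284.H625.N.Sp4

/-!
# P284 (helper625), program N, module N1: `SpStmt` with twisted equivariance of `F`

`SecN`: a natural form of full rank `R` with the property `LFin`, on a Galois covering of a projective
manifold `X`, gives `R + 1` sections of a power of its line with independent ratios. Here
`F (g • y) = A_g (F y) + b_g` with linear automorphisms `A_g`. `SpStmtN`: impossible if `X` is special.
(Assembly of helper837.)
-/

open scoped Manifold ContDiff Topology ComplexOrder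
open Filter Set Metric

noncomputable section

namespace Vale.Agent.P284.H625.N

open Vale.Agent.P272.K Vale.Agent.P272.KOD Vale.Agent.P284.H573 Vale.Agent.P284.H812
  Vale.Agent.P284.H451 Vale.Agent.P284.H553 Vale.Agent.P284.H619 Vale.Agent.P284.H894
  Vale.Agent.P284.H894.G Vale.Agent.P284.H553.LB Vale.Agent.P284.H335 Vale.Agent.P284.H998
  Vale.Agent.P284.H248 Vale.Agent.P284.H837

/-- sections of a power of the line of `v`, projective `X`, twisted `F` -/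
def SecN : Prop :=
  ∀ (n : ℕ) (X : Type) [TopologicalSpace X] [T2Space X] [CompactSpace X] [ConnectedSpace X]
    [ChartedSpace (Cm n) X] [IsManifold 𝓘(ℂ, Cm n) ω X] (ι : Type) [Fintype ι] (_ : PJ n X ι)
    (E Γ : Type) [TopologicalSpace E] [ConnectedSpace E] [Group Γ] [MulAction Γ E]
    (p : E → X) (_ : IsGalois Γ p)
    (q : ℕ) (F : E → Cm q)
    (_ : ∀ (y : E) (e : Chart n X), At e (p y) → ∃ f : Cm n → Cm q,
      (∀ᶠ y' in 𝓝 y, F y' = f (e (p y'))) ∧ AnalyticAt ℂ f (e (p y)))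
    (_ : ∀ g : Γ, ∃ (A : Cm q ≃L[ℂ] Cm q) (a : Cm q), ∀ y, F (g • y) = A (F y) + a)
    (H : Type) [NormedAddCommGroup H] [InnerProductSpace ℂ H] [CompleteSpace H]
    (R m : ℕ) (_ : 1 ≤ R) (_ : 1 ≤ m) (v : E → Chart n X → (Fin R → Cm n) → H)
    (_ : HForm n R m p H v) (_ : Eqv Γ p v)
    (_ : ∃ y₀ e b γ t, NFF m p v F y₀ e b γ t) (_ : LFin Γ m p v F),
    ∃ (k : ℕ) (s : Fin (R + 1) → X → Chart n X → (Fin R → Cm n) → ℂ) (x : X) (e : Chart n X)
      (ξ : Fin R → Cm n), 1 ≤ k ∧ (∀ a, LSec p R m k v (s a)) ∧ x ∈ GoodX p R m v ∧ At e x ∧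
      s 0 x e ξ ≠ 0 ∧ LinearIndependent ℂ fun a : Fin R =>
        fderiv ℂ (fun z => s a.succ (e.symm z) e ξ / s 0 (e.symm z) e ξ) (e x)

/-- **SP**, twisted `F` -/
def SpStmtN : Prop :=
  ∀ (n : ℕ) (X : Type) [TopologicalSpace X] [T2Space X] [CompactSpace X] [ConnectedSpace X]
    [ChartedSpace (Cm n) X] [IsManifold 𝓘(ℂ, Cm n) ω X] (ι : Type) [Fintype ι] (_ : PJ n X ι)
    (_ : Special n X)
    (E Γ : Type) [TopologicalSpace E] [ConnectedSpace E] [Group Γ] [MulAction Γ E]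
    (p : E → X) (_ : IsGalois Γ p)
    (q : ℕ) (F : E → Cm q)
    (_ : ∀ (y : E) (e : Chart n X), At e (p y) → ∃ f : Cm n → Cm q,
      (∀ᶠ y' in 𝓝 y, F y' = f (e (p y'))) ∧ AnalyticAt ℂ f (e (p y)))
    (_ : ∀ g : Γ, ∃ (A : Cm q ≃L[ℂ] Cm q) (a : Cm q), ∀ y, F (g • y) = A (F y) + a)
    (H : Type) [NormedAddCommGroup H] [InnerProductSpace ℂ H] [CompleteSpace H]
    (R m : ℕ) (_ : 1 ≤ R) (_ : 1 ≤ m) (v : E → Chart n X → (Fin R → Cm n) → H)
    (_ : HForm n R m p H v) (_ : Eqv Γ p v)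
    (_ : ∃ y₀ e b γ t, NFF m p v F y₀ e b γ t) (_ : LFin Γ m p v F),
    False

theorem sec_of (hM1 : M1N) (hM2 : M2N) (hM3 : M3N) (hM4 : M4Stmt) (hM5 : M5N)
    (hM6 : M6N) (hM7 : M7Stmt) (hC : CntStmt) (hT : TrStmt) : SecN := by
  intro n X _ _ _ _ _ _ ι _ P E Γ _ _ _ _ p hp q F hF hper H _ _ _ R m hR hm v hv heqv hN hLF
  obtain ⟨y₀, e, b, γ, t, h⟩ := hN
  have hD : DatN n R q m X E Γ H p v F := ⟨hR, hm, hp, hv, heqv, hF, hper⟩
  obtain ⟨-, hcX, hall⟩ := hM2 n R q m X E Γ H p v F hD y₀ e b γ t h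
  obtain ⟨W, hW, hfirst⟩ := hM6 n R q m X E Γ H p v F hD y₀ e b γ t h
  have hRn : R ≤ n := by
    have := LinearMap.finrank_le_finrank_of_surjective
      (f := (fderiv ℂ b (e (p y₀)) : Cm n →ₗ[ℂ] Cm R)) h.nf.bsurj
    simpa using this
  obtain ⟨Z, i1, i2, i3, i4, i5, i6, j, hj, w, hw, hpos, z₁, k₁, hk₁, hjW, hej, -, hbij⟩ :=
    zStmt n R hR hRn X ι P e (p y₀) h.nf.mem (W ∩ {x | ∃ y, p y = x ∧ NFF m p v F y e b γ t})
      (inter_mem hW (h.evX hp.cov)) b h.nf.ban h.nf.bsurj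
  obtain ⟨hjW1, y₁, hy₁, h₁⟩ := hjW
  have hI : HImmAt R Z H (NZ v hD.gal.surj j) := by
    obtain ⟨a1, a2⟩ := himm_NZ hv hp.cov.isLocalHomeomorph hp.surj hj hk₁ hy₁ h₁.nf hbij
    exact ⟨k₁, z₁, hk₁, a1, a2⟩
  have hball := fun (y₀ : E) (e : Chart n X) (b : Cm n → Cm R) (γ : Cm R → H) (t : Cm R → Cm q)
    (h : NFF m p v F y₀ e b γ t) => ball_of hM1 hM4 hC hT hD hLF hj hw hpos hI h
  obtain ⟨d, hd⟩ := glob_d hM3 hD hj (fun y₀ e b γ t h => by
    obtain ⟨r, hr, d, a1, a2, -⟩ := hball y₀ e b γ t h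
    exact ⟨r, hr, d, a1, a2⟩) hcX hall
  -- the ball about `y₁`
  obtain ⟨r, hr, d₁, hd1, hd2, hdiff⟩ := hball y₁ e b γ t h₁
  set β₁ := b (e (p y₁)) with hβ₁
  have hne : (BrG p v F j γ t β₁).Nonempty := by
    have := hfirst Z j hj z₁ k₁ hk₁ hjW1 hbij
    rwa [← hy₁] at this
  have hd₁ : 1 ≤ d₁ := by
    have a1 := hd1 β₁ (mem_ball_self hr)
    have a2 : (1 : ℕ∞) ≤ (BrG p v F j γ t β₁).encard := Set.one_le_encard_iff_nonempty.2 hne
    exact_mod_cast a2.trans a1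
  have hev : ∀ᶠ β in 𝓝 β₁, (AnalyticAt ℂ γ β ∧ ImmAt γ β ∧ AnalyticAt ℂ t β) ∧ β ∈ ball β₁ r ∧
      ∃ x, b (e x) = β ∧ ∃ y, p y = x ∧ NFF m p v F y e b γ t := by
    refine (h₁.nf.γan.eventually_analyticAt.and ((h₁.nf.imm.eventually h₁.nf.γan).and
      h₁.tan.eventually_analyticAt)).and ((show ∀ᶠ β in 𝓝 β₁, β ∈ ball β₁ r from
      ball_mem_nhds _ hr).and ?_)
    rw [hβ₁, ← be_map h₁.nf.mem h₁.nf.ban h₁.nf.bsurj, eventually_map]
    filter_upwards [h₁.evX hp.cov] with x hx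
    exact ⟨x, rfl, hx⟩
  obtain ⟨ρ, hρ, hB⟩ := Metric.eventually_nhds_iff_ball.1 hev
  obtain ⟨K, l1, l2, l3, hmet, himm, hIK⟩ := segNZ hD hj hI
  obtain ⟨K', j1, j2, j3, V, hVd, hVi, -, hVb⟩ := hM4 R m Z H (NZ v hD.gal.surj j)
    (hmet_NZ hv hp.cov.isLocalHomeomorph hp.surj hj) (ball β₁ ρ) isOpen_ball γ
    (fun z hz => (hB z hz).1.1.differentiableAt.differentiableWithinAt)
    (fun z hz => (hB z hz).1.2.1)
  have hfam : BrFam (m * (R + 2) + 1) (segN (NZ v hD.gal.surj j)) V (ball β₁ ρ)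
      (BrG p v F j γ t) :=
    brFam hD hj (fun z hz => (hB z hz).1.1) (fun z hz => (hB z hz).1.2.2) hVb
  obtain ⟨β₀, hβ₀, -, hβ₀d⟩ := mem_closure_iff.1 (hd2 (mem_ball_self hr)) (ball β₁ ρ) isOpen_ball
    (mem_ball_self hρ)
  obtain ⟨k, l, σ, C, β, hk, hl, hβ, hσ, hσ0, hli⟩ := hM7 R (m * (R + 2) + 1) hR (by omega) Z w hw
    hpos K (segN (NZ v hD.gal.surj j)) hmet hIK K' V (ball β₁ ρ) isOpen_ball hVd
    (fun z hz => (hVi z hz).1) (BrG p v F j γ t) hfam d₁ (fun z hz => hd1 z (hB z hz).2.1) β₀ hβ₀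
    hβ₀d hd₁
  obtain ⟨-, hβr, x₂, hx₂, y₂, hy₂, h₂⟩ := hB β hβ
  have hT' : ∀ a, DifferentiableOn ℂ (trv (BrG p v F j γ t) (σ a)) (ball β₁ r) := fun a =>
    hdiff k (σ a) C l hl (hσ a)
  have hTa : ∀ a, AnalyticAt ℂ (trv (BrG p v F j γ t) (σ a)) β := fun a =>
    Vale.Agent.P268.analyticAt_of_differentiableOn isOpen_ball (hT' a) hβr
  have hs : ∀ a, LSec p R m k v (sTr m p v F j (σ a)) := fun a =>
    lsec_of hM3 hM4 hM5 hD hj hw hI hall hd (σ a) (hσ a) (fun y₀ e b γ t h => by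
      obtain ⟨r', hr', d', -, -, a3⟩ := hball y₀ e b γ t h
      exact Vale.Agent.P268.analyticAt_of_differentiableOn isOpen_ball (a3 k (σ a) C l hl (hσ a))
        (mem_ball_self hr'))
  have he₂ : At e x₂ := hy₂ ▸ h₂.nf.mem
  have hb₂ : AnalyticAt ℂ b (e x₂) := hy₂ ▸ h₂.nf.ban
  have hbs₂ : Function.Surjective (fderiv ℂ b (e x₂)) := hy₂ ▸ h₂.nf.bsurj
  obtain ⟨ξ, hξ⟩ := exists_frame hbs₂
  -- the sections near `x₂`
  have hloc : ∀ᶠ z in 𝓝 (e x₂), ∀ a, sTr m p v F j (σ a) (e.symm z) e ξ =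
      trv (BrG p v F j γ t) (σ a) (b z) * (DM b z ξ).det ^ k := by
    have a1 : ∀ᶠ x in 𝓝 x₂, At e x ∧ ∃ y, p y = x ∧ NFF m p v F y e b γ t := by
      have a2 := h₂.evX hp.cov
      rw [hy₂] at a2
      filter_upwards [a2, e.open_source.mem_nhds he₂.2] with x b1 b2
      exact ⟨⟨he₂.1, b2⟩, b1⟩
    have a3 : Tendsto e.symm (𝓝 (e x₂)) (𝓝 x₂) := by
      have := (e.continuousAt_symm he₂.mem_target).tendsto
      rwa [he₂.left_inv] at this
    filter_upwards [a3.eventually a1, e.open_target.mem_nhds he₂.mem_target] with z hz hzt a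
    obtain ⟨b1, y, b2, b3⟩ := hz
    rw [sTr_eq hM3 hD hj (σ a) ⟨y, e, b, γ, t, b2, b3⟩ b1 ξ]
    simp only
    have b4 : e (e.symm z) = z := e.right_inv hzt
    rw [b4]
    congr 2
    have b5 : (fun z => b (e (e.symm z))) =ᶠ[𝓝 z] b := by
      filter_upwards [e.open_target.mem_nhds hzt] with z' hz'
      rw [e.right_inv hz']
    rw [DM_congr b5]
  have hloc0 := hloc.self_of_nhds
  simp only [he₂.left_inv, hx₂, hξ, one_pow, mul_one] at hloc0
  have hdet : ∀ᶠ z in 𝓝 (e x₂), (DM b z ξ).det ≠ 0 := by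
    have a1 : ContinuousAt (fun z => (DM b z ξ).det) (e x₂) := by
      have a2 : ContinuousAt (fun z => DM b z ξ) (e x₂) := by
        refine tendsto_pi_nhds.2 fun i => tendsto_pi_nhds.2 fun jj => ?_
        have a3 : ContinuousAt (fun z => fderiv ℂ b z (ξ jj)) (e x₂) :=
          (hb₂.fderiv.continuousAt).clm_apply continuousAt_const
        exact ((continuous_apply i).continuousAt.comp a3)
      exact (Continuous.matrix_det continuous_id).continuousAt.comp a2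
    refine a1.eventually_ne ?_
    rw [hξ]; exact one_ne_zero
  refine ⟨k, fun a => sTr m p v F j (σ a), x₂, e, ξ, hk, hs, ⟨y₂, hy₂, e, b, γ, h₂.nf⟩, he₂, ?_,
    ?_⟩
  · show sTr m p v F j (σ 0) x₂ e ξ ≠ 0
    rw [hloc0 0]
    exact hσ0
  · have key : ∀ a : Fin R, fderiv ℂ (fun z => sTr m p v F j (σ a.succ) (e.symm z) e ξ /
        sTr m p v F j (σ 0) (e.symm z) e ξ) (e x₂) =
        (fderiv ℂ (fun z => trv (BrG p v F j γ t) (σ a.succ) z /
          trv (BrG p v F j γ t) (σ 0) z) β).comp (fderiv ℂ b (e x₂)) := by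
      intro a
      have a1 : (fun z => sTr m p v F j (σ a.succ) (e.symm z) e ξ /
          sTr m p v F j (σ 0) (e.symm z) e ξ) =ᶠ[𝓝 (e x₂)]
          fun z => (fun u => trv (BrG p v F j γ t) (σ a.succ) u /
            trv (BrG p v F j γ t) (σ 0) u) (b z) := by
        filter_upwards [hloc, hdet] with z b1 b2
        rw [b1, b1, mul_div_mul_right _ _ (pow_ne_zero _ b2)]
      rw [a1.fderiv_eq]
      have a2 : DifferentiableAt ℂ (fun u => trv (BrG p v F j γ t) (σ a.succ) u /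
          trv (BrG p v F j γ t) (σ 0) u) (b (e x₂)) := by
        rw [hx₂]
        exact ((hTa a.succ).div (hTa 0) hσ0).differentiableAt
      rw [← hx₂]
      exact fderiv_comp (𝕜 := ℂ) (e x₂) a2 hb₂.differentiableAt
    simp only [key]
    have a1 := hli.map' (((ContinuousLinearMap.compL ℂ (Cm n) (Cm R) ℂ).flip
      (fderiv ℂ b (e x₂))) : (Cm R →L[ℂ] ℂ) →ₗ[ℂ] (Cm n →L[ℂ] ℂ)) (by
        rw [LinearMap.ker_eq_bot']
        intro L hL
        ext1 u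
        obtain ⟨u', rfl⟩ := hbs₂ u
        exact congrArg (fun L' : Cm n →L[ℂ] ℂ => L' u') hL)
    exact a1

theorem sp_of (hM1 : M1N) (hM2 : M2N) (hM3 : M3N) (hM4 : M4Stmt) (hM5 : M5N)
    (hM6 : M6N) (hM7 : M7Stmt) (hC : CntStmt) (hT : TrStmt) : SpStmtN := by
  intro n X _ _ _ _ _ _ ι _ P hX E Γ _ _ _ _ p hp q F hF hper H _ _ _ R m hR hm v hv heqv hN hLF
  obtain ⟨k, s, x, e, ξ, hk, hs, hx, he, h0, hli⟩ := sec_of hM1 hM2 hM3 hM4 hM5 hM6 hM7 hC hT n X ι P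
    E Γ p hp q F hF hper H R m hR hm v hv heqv hN hLF
  exact sp_false Vale.Agent.P284.H206.bogStmt P hX hR hv hp.cov hp.surj hm hk hs hx he h0 hli

end Vale.Agent.P284.H625.N
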